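import Vale.Agent.P034.Defs

namespace Vale.Agent.P034

open Finset
open scoped ENNReal

variable {X : Type} [Fintype X] [DecidableEq X]

/-- Weight `a` on the single set `R`. -/
noncomputable def single (R : Finset X) (a : ℝ≥0∞) (S : Finset X) : ℝ≥0∞ := if S = R then a else 0

/-- Product of two weights: `(v * w)(S)` is the sum of `v A * w B` over all splittings of `S` into
disjoint parts `A`, `B`. -/
noncomputable def conv (v w : Finset X → ℝ≥0∞) (S : Finset X) : ℝ≥0∞ :=
  ∑ A ∈ S.powerset, v A * w (S \ A)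

lemma sum_conv (φ v w : Finset X → ℝ≥0∞)
    (hφ : ∀ A B, Disjoint A B → φ (A ∪ B) = φ A * φ B)
    (hd : ∀ A B, v A ≠ 0 → w B ≠ 0 → Disjoint A B) :
    ∑ S, φ S * conv v w S = (∑ A, φ A * v A) * ∑ B, φ B * w B := by
  classical
  have e1 : ∑ S, φ S * conv v w S
      = ∑ A : Finset X, ∑ S ∈ univ.filter (fun S => A ⊆ S), φ S * (v A * w (S \ A)) := by
    unfold conv
    simp_rw [mul_sum]
    refine Finset.sum_comm' ?_
    intro S A
    simp
  rw [e1, Finset.sum_mul_sum]
  refine sum_congr rfl (fun A _ => ?_)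
  have e2 : ∑ B, φ A * v A * (φ B * w B)
      = ∑ B ∈ univ.filter (fun B => Disjoint A B), φ A * v A * (φ B * w B) := by
    symm
    apply sum_filter_of_ne
    intro B _ hB
    have h1 : v A ≠ 0 := by
      intro h; apply hB; rw [h]; ring
    have h2 : w B ≠ 0 := by
      intro h; apply hB; rw [h]; ring
    exact hd A B h1 h2
  rw [e2]
  refine sum_bij' (fun S _ => S \ A) (fun B _ => A ∪ B) ?_ ?_ ?_ ?_ ?_
  · intro S _
    simp only [mem_filter, mem_univ, true_and]
    exact disjoint_sdiff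
  · intro B _
    simp
  · intro S hS
    simp only [mem_filter, mem_univ, true_and] at hS
    exact union_sdiff_of_subset hS
  · intro B hB
    simp only [mem_filter, mem_univ, true_and] at hB
    rw [union_sdiff_cancel_left hB]
  · intro S hS
    simp only [mem_filter, mem_univ, true_and] at hS
    have h := hφ A (S \ A) disjoint_sdiff
    rw [union_sdiff_of_subset hS] at h
    rw [h]
    ring

lemma W_eq_ind (w : Finset X → ℝ≥0∞) (H : Finset X) :
    W w H = ∑ S, (if S ⊆ H then 1 else 0) * w S := by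
  unfold W
  rw [show H.powerset = univ.filter (fun S => S ⊆ H) by ext S; simp, sum_filter]
  refine sum_congr rfl (fun S _ => ?_)
  split_ifs <;> simp

lemma cst_eq_ind (w : Finset X → ℝ≥0∞) (p : ℝ≥0∞) :
    cst w p = ∑ S, p ^ S.card * w S := by
  unfold cst
  exact sum_congr rfl (fun S _ => mul_comm _ _)

lemma W_conv (v w : Finset X → ℝ≥0∞) (hd : ∀ A B, v A ≠ 0 → w B ≠ 0 → Disjoint A B)
    (H : Finset X) : W (conv v w) H = W v H * W w H := by
  rw [W_eq_ind, W_eq_ind, W_eq_ind]
  refine sum_conv _ v w ?_ hd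
  intro A B _
  by_cases h1 : A ⊆ H <;> by_cases h2 : B ⊆ H <;> simp [h1, h2, union_subset_iff]

lemma cst_conv (v w : Finset X → ℝ≥0∞) (hd : ∀ A B, v A ≠ 0 → w B ≠ 0 → Disjoint A B)
    (p : ℝ≥0∞) : cst (conv v w) p = cst v p * cst w p := by
  rw [cst_eq_ind, cst_eq_ind, cst_eq_ind]
  refine sum_conv _ v w ?_ hd
  intro A B h
  rw [card_union_of_disjoint h, pow_add]

lemma W_add (v w : Finset X → ℝ≥0∞) (H : Finset X) : W (v + w) H = W v H + W w H := by
  unfold W
  simp [sum_add_distrib]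

lemma cst_add (v w : Finset X → ℝ≥0∞) (p : ℝ≥0∞) : cst (v + w) p = cst v p + cst w p := by
  unfold cst
  simp [sum_add_distrib, add_mul]

lemma W_single (R : Finset X) (a : ℝ≥0∞) (H : Finset X) :
    W (single R a) H = if R ⊆ H then a else 0 := by
  unfold W single
  rw [sum_ite_eq']
  simp

lemma cst_single (R : Finset X) (a p : ℝ≥0∞) :
    cst (single R a) p = a * p ^ R.card := by
  unfold cst single
  simp

lemma conv_supp {v w : Finset X → ℝ≥0∞} {U V : Finset X} (hv : ∀ S, v S ≠ 0 → S ⊆ U)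
    (hw : ∀ S, w S ≠ 0 → S ⊆ V) : ∀ S, conv v w S ≠ 0 → S ⊆ U ∪ V := by
  intro S hS
  unfold conv at hS
  obtain ⟨A, hA, hne⟩ := exists_ne_zero_of_sum_ne_zero hS
  have h1 := hv A (left_ne_zero_of_mul hne)
  have h2 := hw _ (right_ne_zero_of_mul hne)
  intro x hx
  by_cases hxA : x ∈ A
  · exact mem_union_left _ (h1 hxA)
  · exact mem_union_right _ (h2 (mem_sdiff.2 ⟨hx, hxA⟩))

/-- The class of `m`-fold read-once weights on the ground set `U` (no weight on the empty set):
generated from `0` by sums over disjoint ground sets, by products over disjoint ground sets of two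
sums of `m` members, and by `(w_j) ↦ x^R (a + ∑_j w_j)` with `m` members `w_j` and with `R` nonempty
and disjoint from their ground set. -/
inductive RO (m : ℕ) : Finset X → (Finset X → ℝ≥0∞) → Prop
  | zero (U : Finset X) : RO m U (fun _ => 0)
  | root (R U : Finset X) (a : ℝ≥0∞) (w : Fin m → Finset X → ℝ≥0∞) :
      R.Nonempty → Disjoint R U → (∀ j, RO m U (w j)) →
      RO m (R ∪ U) (conv (single R 1) (fun S => single ∅ a S + ∑ j, w j S))
  | sum (U V : Finset X) (v w : Finset X → ℝ≥0∞) :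
      Disjoint U V → RO m U v → RO m V w → RO m (U ∪ V) (fun S => v S + w S)
  | prod (U V : Finset X) (v w : Fin m → Finset X → ℝ≥0∞) :
      Disjoint U V → (∀ j, RO m U (v j)) → (∀ j, RO m V (w j)) →
      RO m (U ∪ V) (conv (fun S => ∑ j, v j S) (fun S => ∑ j, w j S))

lemma W_fadd (v w : Finset X → ℝ≥0∞) (H : Finset X) :
    W (fun S => v S + w S) H = W v H + W w H := W_add v w H

lemma cst_fadd (v w : Finset X → ℝ≥0∞) (p : ℝ≥0∞) :
    cst (fun S => v S + w S) p = cst v p + cst w p := cst_add v w p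

lemma W_fsum {m : ℕ} (w : Fin m → Finset X → ℝ≥0∞) (H : Finset X) :
    W (fun S => ∑ j, w j S) H = ∑ j, W (w j) H := by
  unfold W
  exact sum_comm

lemma cst_fsum {m : ℕ} (w : Fin m → Finset X → ℝ≥0∞) (p : ℝ≥0∞) :
    cst (fun S => ∑ j, w j S) p = ∑ j, cst (w j) p := by
  unfold cst
  simp_rw [sum_mul]
  exact sum_comm

lemma fsum_supp {m : ℕ} {w : Fin m → Finset X → ℝ≥0∞} {U : Finset X}
    (h : ∀ j, ∀ S, w j S ≠ 0 → S ⊆ U) : ∀ S, ∑ j, w j S ≠ 0 → S ⊆ U := by
  intro S hS
  obtain ⟨j, _, hj⟩ := exists_ne_zero_of_sum_ne_zero hS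
  exact h j S hj

lemma single_supp (R : Finset X) (a : ℝ≥0∞) : ∀ S, single R a S ≠ 0 → S ⊆ R := by
  intro S hS
  unfold single at hS
  by_cases h : S = R
  · exact h.le
  · exact absurd (if_neg h) hS

lemma fadd_supp {v w : Finset X → ℝ≥0∞} {U V : Finset X} (hv : ∀ S, v S ≠ 0 → S ⊆ U)
    (hw : ∀ S, w S ≠ 0 → S ⊆ V) : ∀ S, v S + w S ≠ 0 → S ⊆ U ∪ V := by
  intro S hS
  by_cases h : v S = 0
  · have : w S ≠ 0 := by
      intro h0; apply hS; simp [h, h0]
    exact (hw S this).trans subset_union_right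
  · exact (hv S h).trans subset_union_left

lemma RO.supp {m : ℕ} {U : Finset X} {w : Finset X → ℝ≥0∞} (h : RO m U w) :
    ∀ S, w S ≠ 0 → S ⊆ U := by
  induction h with
  | zero => intro S hS; exact absurd rfl hS
  | root R U a w hR hd hw ih =>
    refine conv_supp (single_supp R 1) ?_
    have := fadd_supp (single_supp (X := X) ∅ a) (fsum_supp ih)
    rwa [empty_union] at this
  | sum U V v w hd hv hw ihv ihw => exact fadd_supp ihv ihw
  | prod U V v w hd hv hw ihv ihw => exact conv_supp (fsum_supp ihv) (fsum_supp ihw)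

end Vale.Agent.P034
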