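import Mathlib

namespace Vale.Agent.P034

open Finset

variable {X : Type} [Fintype X] [DecidableEq X]

/-- the `i`-th slice of a subset of `X × Fin N` -/
def slice {N : ℕ} (H : Finset (X × Fin N)) (i : Fin N) : Finset X :=
  univ.filter (fun x => (x, i) ∈ H)

lemma mem_slice {N : ℕ} {H : Finset (X × Fin N)} {i : Fin N} {x : X} :
    x ∈ slice H i ↔ (x, i) ∈ H := by simp [slice]

/-- `N` disjoint copies of `F`, joined by OR -/
def copies (N : ℕ) (F : Set (Finset X)) : Set (Finset (X × Fin N)) := {H | ∃ i, slice H i ∈ F}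

/-- the copied weight -/
noncomputable def cg (N : ℕ) (g : Finset X → ℝ) (T : Finset (X × Fin N)) : ℝ :=
  open Classical in
  if T ≠ ∅ ∧ ∃ i, T ⊆ univ ×ˢ {i} then g (T.image Prod.fst) else 0

lemma slice_prod {N : ℕ} (S : Finset X) (i : Fin N) : slice (S ×ˢ {i}) i = S := by
  ext x; simp [mem_slice]

lemma image_prod {N : ℕ} (S : Finset X) (i : Fin N) : (S ×ˢ ({i} : Finset (Fin N))).image Prod.fst
    = S := by
  ext x; simp

lemma prod_inj {N : ℕ} (i : Fin N) : Function.Injective
    (fun S : Finset X => S ×ˢ ({i} : Finset (Fin N))) := by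
  intro S T h
  have := congrArg (fun Z => Z.image Prod.fst) h
  simp only [image_prod] at this
  exact this

lemma eq_prod {N : ℕ} {T : Finset (X × Fin N)} {i : Fin N} (h : T ⊆ univ ×ˢ {i}) :
    T = (T.image Prod.fst) ×ˢ {i} := by
  ext ⟨x, j⟩
  simp only [mem_product, mem_image, mem_singleton, Prod.exists, exists_and_right,
    exists_eq_right]
  constructor
  · intro hx
    have h1 := h hx
    simp only [mem_product, mem_univ, mem_singleton, true_and] at h1
    exact ⟨⟨j, hx⟩, h1⟩
  · rintro ⟨⟨k, hk⟩, rfl⟩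
    have h1 := h hk
    simp only [mem_product, mem_univ, mem_singleton, true_and] at h1
    rwa [h1] at hk

lemma cg_prod {N : ℕ} (g : Finset X → ℝ) {S : Finset X} (hS : S ≠ ∅) (i : Fin N) :
    cg N g (S ×ˢ {i}) = g S := by
  unfold cg
  rw [if_pos, image_prod]
  refine ⟨?_, i, product_subset_product (subset_univ _) Subset.rfl⟩
  intro h
  apply hS
  have := congrArg (fun Z => Z.image Prod.fst) h
  simpa [image_prod] using this

lemma cg_cover {N : ℕ} {F : Set (Finset X)} {g : Finset X → ℝ} (hg0 : ∀ S, 0 ≤ g S)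
    (hgE : g ∅ = 0) (hg : ∀ H ∈ F, 1 ≤ ∑ S ∈ H.powerset, g S) (H : Finset (X × Fin N))
    (hH : H ∈ copies N F) : 1 ≤ ∑ T ∈ H.powerset, cg N g T := by
  classical
  obtain ⟨i, hi⟩ := hH
  refine (hg _ hi).trans ?_
  have h0 : ∀ T, 0 ≤ cg N g T := by
    intro T
    unfold cg
    split_ifs
    · exact hg0 _
    · exact le_rfl
  calc ∑ S ∈ (slice H i).powerset, g S
      = ∑ S ∈ (slice H i).powerset.erase ∅, g S := by
        rw [← add_sum_erase _ _ (empty_mem_powerset _), hgE, zero_add]
    _ = ∑ S ∈ (slice H i).powerset.erase ∅, cg N g (S ×ˢ {i}) := by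
        refine sum_congr rfl (fun S hS => ?_)
        rw [cg_prod g (ne_of_mem_erase hS)]
    _ = ∑ T ∈ ((slice H i).powerset.erase ∅).image (fun S => S ×ˢ ({i} : Finset (Fin N))),
          cg N g T := by
        rw [sum_image (fun a _ b _ hab => prod_inj i hab)]
    _ ≤ ∑ T ∈ H.powerset, cg N g T := by
        refine sum_le_sum_of_subset_of_nonneg ?_ (fun T _ _ => h0 T)
        intro T hT
        obtain ⟨S, hS, rfl⟩ := mem_image.1 hT
        rw [mem_erase, mem_powerset] at hS
        rw [mem_powerset]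
        rintro ⟨x, j⟩ hx
        simp only [mem_product, mem_singleton] at hx
        rw [hx.2]
        exact mem_slice.1 (hS.2 hx.1)

lemma cg_cost {N : ℕ} {g : Finset X → ℝ} (hg0 : ∀ S, 0 ≤ g S) {p : ℝ} (hp : 0 ≤ p) :
    ∑ T : Finset (X × Fin N), cg N g T * p ^ T.card ≤ N * ∑ S : Finset X, g S * p ^ S.card := by
  classical
  calc ∑ T : Finset (X × Fin N), cg N g T * p ^ T.card
      ≤ ∑ T : Finset (X × Fin N), ∑ i : Fin N,
          (if T ⊆ univ ×ˢ {i} then g (T.image Prod.fst) * p ^ T.card else 0) := by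
        refine sum_le_sum (fun T _ => ?_)
        have hnn : ∀ i ∈ (univ : Finset (Fin N)), (0 : ℝ) ≤
            (if T ⊆ univ ×ˢ {i} then g (T.image Prod.fst) * p ^ T.card else 0) := by
          intro i _
          split_ifs
          · exact mul_nonneg (hg0 _) (pow_nonneg hp _)
          · exact le_rfl
        unfold cg
        split_ifs with h
        · obtain ⟨_, i, hi⟩ := h
          have h2 := single_le_sum hnn (mem_univ i)
          rw [if_pos hi] at h2
          exact h2
        · rw [zero_mul]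
          exact sum_nonneg hnn
    _ = ∑ i : Fin N, ∑ T : Finset (X × Fin N),
          (if T ⊆ univ ×ˢ {i} then g (T.image Prod.fst) * p ^ T.card else 0) := sum_comm
    _ = ∑ _i : Fin N, ∑ S : Finset X, g S * p ^ S.card := by
        refine sum_congr rfl (fun i _ => ?_)
        rw [← sum_filter]
        refine sum_bij' (fun T _ => T.image Prod.fst) (fun S _ => S ×ˢ {i}) ?_ ?_ ?_ ?_ ?_
        · intro T _
          exact mem_univ _
        · intro S _
          simp only [mem_filter, mem_univ, true_and]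
          exact product_subset_product (subset_univ _) Subset.rfl
        · intro T hT
          simp only [mem_filter, mem_univ, true_and] at hT
          exact (eq_prod hT).symm
        · intro S _
          exact image_prod S i
        · intro T hT
          simp only [mem_filter, mem_univ, true_and] at hT
          congr 2
          conv_lhs => rw [eq_prod hT]
          rw [card_product, card_singleton, mul_one]
    _ = N * ∑ S : Finset X, g S * p ^ S.card := by
        rw [sum_const, card_univ, Fintype.card_fin, nsmul_eq_mul]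

/-- One of the copies of a cover is cheap. -/
lemma cheap_copy {N : ℕ} (hN : 1 ≤ N) {F : Set (Finset X)} {p : ℝ} (hp : 0 ≤ p)
    (G : Finset (Finset (X × Fin N))) (hG : ∀ H ∈ copies N F, ∃ T ∈ G, T ⊆ H)
    (hc : ∑ T ∈ G, p ^ T.card ≤ 1 / 2) :
    ∃ A : Finset (Finset X), (∀ H ∈ F, ∃ S ∈ A, S ⊆ H) ∧ ∑ S ∈ A, p ^ S.card ≤ 1 / (2 * N) := by
  classical
  have hN0 : (0 : ℝ) < N := by exact_mod_cast hN
  have hne : ∀ T ∈ G, T ≠ ∅ := by
    rintro T hT rfl
    have h1 : p ^ (∅ : Finset (X × Fin N)).card ≤ ∑ T ∈ G, p ^ T.card :=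
      single_le_sum (f := fun T : Finset (X × Fin N) => p ^ T.card)
        (fun T _ => by positivity) hT
    rw [card_empty, pow_zero] at h1
    linarith
  have hsum : ∑ i : Fin N, ∑ T ∈ G.filter (fun T => T ⊆ univ ×ˢ {i}), p ^ T.card ≤ 1 / 2 := by
    refine le_trans ?_ hc
    simp_rw [sum_filter]
    rw [sum_comm]
    refine sum_le_sum (fun T hT => ?_)
    obtain ⟨⟨x, j⟩, hx⟩ := nonempty_iff_ne_empty.2 (hne T hT)
    rw [sum_eq_single j]
    · split_ifs
      · exact le_rfl
      · positivity
    · intro b _ hb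
      rw [if_neg]
      intro h
      have := h hx
      simp only [mem_product, mem_univ, mem_singleton, true_and] at this
      exact hb this.symm
    · intro h
      exact absurd (mem_univ j) h
  obtain ⟨i, hi⟩ : ∃ i : Fin N, ∑ T ∈ G.filter (fun T => T ⊆ univ ×ˢ {i}), p ^ T.card
      ≤ 1 / (2 * N) := by
    by_contra hcon
    push Not at hcon
    have hN' : (univ : Finset (Fin N)).Nonempty := ⟨⟨0, hN⟩, mem_univ _⟩
    have h1 := sum_lt_sum_of_nonempty hN' (fun i _ => hcon i)
    rw [sum_const, card_univ, Fintype.card_fin, nsmul_eq_mul] at h1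
    have h2 : (N : ℝ) * (1 / (2 * N)) = 1 / 2 := by field_simp
    linarith
  refine ⟨(G.filter (fun T => T ⊆ univ ×ˢ {i})).image (fun T => T.image Prod.fst), ?_, ?_⟩
  · intro H hH
    obtain ⟨T, hT, hTH⟩ := hG (H ×ˢ {i}) ⟨i, by rw [slice_prod]; exact hH⟩
    have hTi : T ⊆ univ ×ˢ {i} := hTH.trans (product_subset_product (subset_univ _) Subset.rfl)
    refine ⟨T.image Prod.fst, mem_image.2 ⟨T, mem_filter.2 ⟨hT, hTi⟩, rfl⟩, ?_⟩
    have := image_subset_image (f := Prod.fst) hTH
    rwa [image_prod] at this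
  · refine le_trans ?_ hi
    refine (sum_image_le_of_nonneg (fun _ _ => by positivity)).trans (le_of_eq ?_)
    refine sum_congr rfl (fun T hT => ?_)
    have hTi := (mem_filter.1 hT).2
    congr 1
    conv_rhs => rw [eq_prod hTi]
    rw [card_product, card_singleton, mul_one]

end Vale.Agent.P034
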