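import Vale.Agent.P034.Defs

namespace Vale.Agent.P034

open Finset
open scoped ENNReal

variable {X : Type} [Fintype X] [DecidableEq X]

lemma CoverAt.mono {q : ℝ≥0∞} {U U' : Finset X} {T T' : Set (Finset X)} {c c' : ℝ≥0∞}
    (h : CoverAt q U T c) (hU : U ⊆ U') (hT : T' ⊆ T) (hc : c ≤ c') : CoverAt q U' T' c' := by
  obtain ⟨G, h1, h2, h3⟩ := h
  exact ⟨G, fun S hS => (h1 S hS).trans hU, fun H hH => h2 H (hT hH), h3.trans hc⟩

/-- everything is covered by the empty set -/
lemma CoverAt.one (q : ℝ≥0∞) (U : Finset X) (T : Set (Finset X)) : CoverAt q U T 1 := by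
  refine ⟨{∅}, ?_, ?_, ?_⟩
  · intro S hS
    rw [Finset.mem_singleton] at hS
    rw [hS]; exact Finset.empty_subset _
  · intro H _
    exact ⟨∅, Finset.mem_singleton_self _, Finset.empty_subset _⟩
  · simp

lemma CoverAt.union {q : ℝ≥0∞} {U : Finset X} {T T' : Set (Finset X)} {c c' : ℝ≥0∞}
    (h : CoverAt q U T c) (h' : CoverAt q U T' c') : CoverAt q U (T ∪ T') (c + c') := by
  obtain ⟨G, h1, h2, h3⟩ := h
  obtain ⟨G', h1', h2', h3'⟩ := h'
  refine ⟨G ∪ G', ?_, ?_, ?_⟩
  · intro S hS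
    rcases Finset.mem_union.mp hS with h | h
    · exact h1 S h
    · exact h1' S h
  · rintro H (hH | hH)
    · obtain ⟨S, hS, hSH⟩ := h2 H hH
      exact ⟨S, Finset.mem_union_left _ hS, hSH⟩
    · obtain ⟨S, hS, hSH⟩ := h2' H hH
      exact ⟨S, Finset.mem_union_right _ hS, hSH⟩
  · have e := Finset.sum_union_inter (s₁ := G) (s₂ := G') (f := fun S => q ^ S.card)
    calc ∑ S ∈ G ∪ G', q ^ S.card
        ≤ ∑ S ∈ G ∪ G', q ^ S.card + ∑ S ∈ G ∩ G', q ^ S.card := le_self_add
      _ = ∑ S ∈ G, q ^ S.card + ∑ S ∈ G', q ^ S.card := e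
      _ ≤ c + c' := add_le_add h3 h3'

open Classical in
lemma CoverAt.iUnion {q : ℝ≥0∞} {U : Finset X} {ι : Type} {T : ι → Set (Finset X)}
    {c : ι → ℝ≥0∞} (h : ∀ i, CoverAt q U (T i) (c i)) :
    CoverAt q U (⋃ i, T i) (∑' i, c i) := by
  choose G h1 h2 h3 using h
  refine ⟨univ.filter (fun S => ∃ i, S ∈ G i), ?_, ?_, ?_⟩
  · intro S hS
    obtain ⟨i, hi⟩ := (Finset.mem_filter.mp hS).2
    exact h1 i S hi
  · intro H hH
    obtain ⟨i, hi⟩ := Set.mem_iUnion.mp hH
    obtain ⟨S, hS, hSH⟩ := h2 i H hi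
    exact ⟨S, Finset.mem_filter.mpr ⟨Finset.mem_univ _, i, hS⟩, hSH⟩
  · calc ∑ S ∈ univ.filter (fun S => ∃ i, S ∈ G i), q ^ S.card
        ≤ ∑ S ∈ univ.filter (fun S => ∃ i, S ∈ G i),
            ∑' i, (if S ∈ G i then q ^ S.card else 0) := by
          refine Finset.sum_le_sum fun S hS => ?_
          obtain ⟨i, hi⟩ := (Finset.mem_filter.mp hS).2
          refine le_trans (le_of_eq ?_) (ENNReal.le_tsum i)
          rw [if_pos hi]
      _ ≤ ∑ S : Finset X, ∑' i, (if S ∈ G i then q ^ S.card else 0) :=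
          Finset.sum_le_sum_of_subset (Finset.filter_subset _ _)
      _ = ∑' i, ∑ S : Finset X, (if S ∈ G i then q ^ S.card else 0) :=
          (Summable.tsum_finsetSum (fun _ _ => ENNReal.summable)).symm
      _ ≤ ∑' i, c i := by
          refine ENNReal.tsum_le_tsum fun i => ?_
          rw [← Finset.sum_filter, Finset.filter_mem_eq_inter, Finset.univ_inter]
          exact h3 i

lemma CoverAt.prod {q : ℝ≥0∞} {U U' : Finset X} {T T' : Set (Finset X)} {c c' : ℝ≥0∞}
    (h : CoverAt q U T c) (h' : CoverAt q U' T' c') (hd : Disjoint U U') :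
    CoverAt q (U ∪ U') (T ∩ T') (c * c') := by
  obtain ⟨G, h1, h2, h3⟩ := h
  obtain ⟨G', h1', h2', h3'⟩ := h'
  refine ⟨(G ×ˢ G').image (fun p => p.1 ∪ p.2), ?_, ?_, ?_⟩
  · intro S hS
    obtain ⟨p, hp, rfl⟩ := Finset.mem_image.mp hS
    rw [Finset.mem_product] at hp
    exact Finset.union_subset_union (h1 _ hp.1) (h1' _ hp.2)
  · rintro H ⟨hH, hH'⟩
    obtain ⟨S, hS, hSH⟩ := h2 H hH
    obtain ⟨S', hS', hSH'⟩ := h2' H hH'
    exact ⟨S ∪ S', Finset.mem_image.mpr ⟨(S, S'), Finset.mem_product.mpr ⟨hS, hS'⟩, rfl⟩,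
      Finset.union_subset hSH hSH'⟩
  · have hinj : Set.InjOn (fun p : Finset X × Finset X => p.1 ∪ p.2) (G ×ˢ G' : Finset _) := by
      rintro ⟨a, b⟩ hab ⟨a', b'⟩ hab' heq
      rw [Finset.mem_coe, Finset.mem_product] at hab hab'
      simp only at heq hab hab'
      have ka : ∀ {a b : Finset X}, a ⊆ U → b ⊆ U' → (a ∪ b) ∩ U = a := by
        intro a b ha hb
        ext x
        simp only [Finset.mem_inter, Finset.mem_union]
        constructor
        · rintro ⟨hx | hx, hxU⟩
          · exact hx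
          · exact absurd (hb hx) (Finset.disjoint_left.mp hd hxU)
        · intro hx
          exact ⟨Or.inl hx, ha hx⟩
      have kb : ∀ {a b : Finset X}, a ⊆ U → b ⊆ U' → (a ∪ b) ∩ U' = b := by
        intro a b ha hb
        ext x
        simp only [Finset.mem_inter, Finset.mem_union]
        constructor
        · rintro ⟨hx | hx, hxU⟩
          · exact absurd hxU (Finset.disjoint_left.mp hd (ha hx))
          · exact hx
        · intro hx
          exact ⟨Or.inr hx, hb hx⟩
      have e1 : a = a' := by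
        rw [← ka (h1 a hab.1) (h1' b hab.2), heq, ka (h1 a' hab'.1) (h1' b' hab'.2)]
      have e2 : b = b' := by
        rw [← kb (h1 a hab.1) (h1' b hab.2), heq, kb (h1 a' hab'.1) (h1' b' hab'.2)]
      rw [e1, e2]
    rw [Finset.sum_image hinj]
    calc ∑ p ∈ G ×ˢ G', q ^ (p.1 ∪ p.2).card
        = ∑ p ∈ G ×ˢ G', q ^ p.1.card * q ^ p.2.card := by
          refine Finset.sum_congr rfl fun p hp => ?_
          rw [Finset.mem_product] at hp
          rw [Finset.card_union_of_disjoint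
            (Finset.disjoint_of_subset_left (h1 _ hp.1)
              (Finset.disjoint_of_subset_right (h1' _ hp.2) hd)), pow_add]
      _ = (∑ S ∈ G, q ^ S.card) * ∑ S ∈ G', q ^ S.card := by
          rw [Finset.sum_mul_sum, Finset.sum_product]
      _ ≤ c * c' := mul_le_mul' h3 h3'

/-- `{H | R ⊆ H}` has cost `q ^ |R|`. -/
lemma CoverAt.single (q : ℝ≥0∞) (R : Finset X) : CoverAt q R {H | R ⊆ H} (q ^ R.card) := by
  refine ⟨{R}, ?_, ?_, ?_⟩
  · intro S hS
    rw [Finset.mem_singleton] at hS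
    rw [hS]
  · intro H hH
    exact ⟨R, Finset.mem_singleton_self _, hH⟩
  · simp

lemma pow_succ_ge (D g : ℝ≥0∞) (m : ℕ) :
    D ^ (m + 1) + ((m : ℝ≥0∞) + 1) * (g * D ^ m) ≤ (D + g) ^ (m + 1) := by
  induction m with
  | zero => simp
  | succ m ih =>
    calc D ^ (m + 1 + 1) + (((m + 1 : ℕ) : ℝ≥0∞) + 1) * (g * D ^ (m + 1))
        ≤ D ^ (m + 1 + 1) + (((m + 1 : ℕ) : ℝ≥0∞) + 1) * (g * D ^ (m + 1))
          + ((m : ℝ≥0∞) + 1) * (g * (g * D ^ m)) := le_self_add
      _ = (D + g) * (D ^ (m + 1) + ((m : ℝ≥0∞) + 1) * (g * D ^ m)) := by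
          push_cast; ring
      _ ≤ (D + g) * (D + g) ^ (m + 1) := mul_le_mul_right ih _
      _ = (D + g) ^ (m + 1 + 1) := by ring

lemma pow_div_ge (D g : ℝ≥0∞) (m : ℕ) :
    D ^ (m + 1) / ((m + 1).factorial : ℝ≥0∞) + g * (D ^ m / (m.factorial : ℝ≥0∞))
      ≤ (D + g) ^ (m + 1) / ((m + 1).factorial : ℝ≥0∞) := by
  have h1 : g * (D ^ m / (m.factorial : ℝ≥0∞))
      = ((m : ℝ≥0∞) + 1) * (g * D ^ m) / ((m + 1).factorial : ℝ≥0∞) := by
    have e : ((m + 1).factorial : ℝ≥0∞) = ((m : ℝ≥0∞) + 1) * (m.factorial : ℝ≥0∞) := by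
      rw [Nat.factorial_succ]; push_cast; ring
    have e0 : ((m : ℝ≥0∞) + 1) ≠ 0 := by simp
    have e1 : ((m : ℝ≥0∞) + 1) ≠ ⊤ := by
      exact ENNReal.add_ne_top.mpr ⟨ENNReal.natCast_ne_top m, ENNReal.one_ne_top⟩
    rw [e, ENNReal.mul_div_mul_left _ _ e0 e1, mul_div_assoc]
  rw [h1, ENNReal.div_add_div_same]
  exact ENNReal.div_le_div_right (pow_succ_ge D g m) _

open Classical in
/-- at least `m` of the events `T i` (cost `γ i`, disjoint ground sets): cost `(∑ γ)^m / m!`.
Induction on `s`, for all `m`. -/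
lemma many_cover {q : ℝ≥0∞} {ι : Type} (s : Finset ι) (V : ι → Finset X)
    (hV : ∀ i ∈ s, ∀ j ∈ s, i ≠ j → Disjoint (V i) (V j)) (T : ι → Set (Finset X))
    (γ : ι → ℝ≥0∞) (h : ∀ i ∈ s, CoverAt q (V i) (T i) (γ i)) (m : ℕ) :
    CoverAt q (s.biUnion V) {H | m ≤ (s.filter (fun i => H ∈ T i)).card}
      ((∑ i ∈ s, γ i) ^ m / (m.factorial : ℝ≥0∞)) := by
  induction s using Finset.induction_on generalizing m with
  | empty =>
    rcases Nat.eq_zero_or_pos m with h0 | h0
    · subst h0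
      have := CoverAt.one q ((∅ : Finset ι).biUnion V) {H : Finset X | 0 ≤ ((∅ : Finset ι).filter (fun i => H ∈ T i)).card}
      simpa using this
    · refine ⟨∅, by simp, ?_, by simp⟩
      intro H hH
      exfalso
      simp only [Set.mem_ofPred_eq, Finset.filter_empty, Finset.card_empty] at hH
      omega
  | insert i0 s hi0 ih =>
    have hV' : ∀ i ∈ s, ∀ j ∈ s, i ≠ j → Disjoint (V i) (V j) := fun i hi j hj =>
      hV i (Finset.mem_insert_of_mem hi) j (Finset.mem_insert_of_mem hj)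
    have h' : ∀ i ∈ s, CoverAt q (V i) (T i) (γ i) := fun i hi =>
      h i (Finset.mem_insert_of_mem hi)
    have ih' := ih hV' h'
    rcases Nat.eq_zero_or_pos m with h0 | h0
    · subst h0
      have := CoverAt.one q ((insert i0 s).biUnion V)
        {H : Finset X | 0 ≤ ((insert i0 s).filter (fun i => H ∈ T i)).card}
      simpa using this
    · obtain ⟨n, rfl⟩ : ∃ n, m = n + 1 := ⟨m - 1, by omega⟩
      have hdis : Disjoint (V i0) (s.biUnion V) := by
        rw [Finset.disjoint_biUnion_right]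
        intro j hj
        refine hV i0 (Finset.mem_insert_self _ _) j (Finset.mem_insert_of_mem hj) ?_
        rintro rfl
        exact hi0 hj
      have hA := ih' (n + 1)
      have hB := (h i0 (Finset.mem_insert_self _ _)).prod (ih' n) hdis
      have hU : (insert i0 s).biUnion V = V i0 ∪ s.biUnion V := Finset.biUnion_insert
      have hA' := hA.mono (U' := (insert i0 s).biUnion V)
        (by rw [hU]; exact Finset.subset_union_right) (le_refl _) le_rfl
      have hB' := hB.mono (U' := (insert i0 s).biUnion V)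
        (by rw [hU]) (le_refl _) le_rfl
      refine (hA'.union hB').mono (subset_refl _) ?_ ?_
      · intro H hH
        simp only [Set.mem_ofPred_eq] at hH
        by_cases hT : H ∈ T i0
        · rw [Finset.filter_insert, if_pos hT, Finset.card_insert_of_notMem (by
            intro hcon
            exact hi0 (Finset.mem_filter.mp hcon).1)] at hH
          right
          exact ⟨hT, by simp only [Set.mem_ofPred_eq]; omega⟩
        · rw [Finset.filter_insert, if_neg hT] at hH
          left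
          exact hH
      · rw [Finset.sum_insert hi0, add_comm (γ i0)]
        exact pow_div_ge _ _ n

end Vale.Agent.P034
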