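import Mathlib

/-!
# P034: working definitions (weights in the extended nonnegative reals)
-/

namespace Vale.Agent.P034

open Finset
open scoped ENNReal

variable {X : Type} [Fintype X] [DecidableEq X]

/-- Total weight of the subsets of `H`. -/
noncomputable def W (w : Finset X → ℝ≥0∞) (H : Finset X) : ℝ≥0∞ := ∑ S ∈ H.powerset, w S

/-- Cost of `w` at `p`. -/
noncomputable def cst (w : Finset X → ℝ≥0∞) (p : ℝ≥0∞) : ℝ≥0∞ := ∑ S : Finset X, w S * p ^ S.card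

/-- The family `T` has a cover by subsets of `U` of cost at most `c` at `q`. -/
def CoverAt (q : ℝ≥0∞) (U : Finset X) (T : Set (Finset X)) (c : ℝ≥0∞) : Prop :=
  ∃ G : Finset (Finset X), (∀ S ∈ G, S ⊆ U) ∧ (∀ H ∈ T, ∃ S ∈ G, S ⊆ H) ∧
    ∑ S ∈ G, q ^ S.card ≤ c

/-- The support of `w` is tree-like. -/
def Tree (w : Finset X → ℝ≥0∞) : Prop :=
  ∀ A B C : Finset X, w A ≠ 0 → w B ≠ 0 → w C ≠ 0 → A ∩ B ⊆ C ∨ A ∩ C ⊆ B

end Vale.Agent.P034
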