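import Vale.Agent.P034.Wrap

namespace Vale.Agent.P034

open Finset

variable {X : Type} [Fintype X] [DecidableEq X]

open Classical in
/-- closure of `S` in `T`: the common part of all members of `T` that contain `S` -/
noncomputable def cl (T : Set (Finset X)) (S : Finset X) : Finset X :=
  univ.filter (fun x => ∀ A ∈ T, S ⊆ A → x ∈ A)

lemma mem_cl {T : Set (Finset X)} {S : Finset X} {x : X} :
    x ∈ cl T S ↔ ∀ A ∈ T, S ⊆ A → x ∈ A := by
  simp [cl]

lemma subset_cl (T : Set (Finset X)) (S : Finset X) : S ⊆ cl T S := by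
  intro x hx
  exact mem_cl.2 (fun A _ hSA => hSA hx)

lemma cl_subset {T : Set (Finset X)} {S A : Finset X} (hA : A ∈ T) (h : S ⊆ A) : cl T S ⊆ A := by
  intro x hx
  exact mem_cl.1 hx A hA h

/-- The closures are tree-like when `T` is. -/
lemma cl_tree {T : Set (Finset X)} (hT : ∀ A ∈ T, ∀ B ∈ T, ∀ C ∈ T, A ∩ B ⊆ C ∨ A ∩ C ⊆ B)
    {S1 S2 S3 A1 : Finset X} (h1 : A1 ∈ T) (hS1 : S1 ⊆ A1) :
    cl T S1 ∩ cl T S2 ⊆ cl T S3 ∨ cl T S1 ∩ cl T S3 ⊆ cl T S2 := by
  by_contra hcon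
  push Not at hcon
  obtain ⟨n1, n2⟩ := hcon
  obtain ⟨x, hx, hx3⟩ := not_subset.mp n1
  obtain ⟨y, hy, hy2⟩ := not_subset.mp n2
  rw [mem_inter] at hx hy
  rw [mem_cl] at hx3 hy2
  push Not at hx3 hy2
  obtain ⟨C, hC, hC3, hxC⟩ := hx3
  obtain ⟨B, hB, hB2, hyB⟩ := hy2
  have hxA : x ∈ A1 := cl_subset h1 hS1 hx.1
  have hyA : y ∈ A1 := cl_subset h1 hS1 hy.1
  have hxB : x ∈ B := cl_subset hB hB2 hx.2
  have hyC : y ∈ C := cl_subset hC hC3 hy.2
  rcases hT A1 h1 B hB C hC with h | h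
  · exact hxC (h (mem_inter.2 ⟨hxA, hxB⟩))
  · exact hyB (h (mem_inter.2 ⟨hyA, hyC⟩))

/-- One tree-like family: any fractional weight which is at least `1` on the members of `T`. -/
lemma fam_one {T : Set (Finset X)} (hT : ∀ A ∈ T, ∀ B ∈ T, ∀ C ∈ T, A ∩ B ⊆ C ∨ A ∩ C ⊆ B)
    (g : Finset X → ℝ) (hg : ∀ S, 0 ≤ g S) (hgT : ∀ A ∈ T, 1 ≤ ∑ S ∈ A.powerset, g S)
    (p : ℝ) (hp : 0 ≤ p) (hp1 : p ≤ 1) (hc : ∑ S : Finset X, g S * p ^ S.card ≤ 1 / 2) :
    ∃ G : Finset (Finset X), (∀ A ∈ T, ∃ S ∈ G, S ⊆ A) ∧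
      ∑ S ∈ G, (p / 4104) ^ S.card ≤ 1 / 2 := by
  classical
  -- the compressed weight
  have key := real_version
    (fun C => ∑ S ∈ univ.filter (fun S => (∃ A ∈ T, S ⊆ A) ∧ cl T S = C), g S) ?_ ?_ p hp ?_
  · obtain ⟨G, hG, hGc⟩ := key
    refine ⟨G, fun A hA => hG A ?_, hGc⟩
    refine (hgT A hA).trans ?_
    have e : ∑ C ∈ A.powerset, ∑ S ∈ univ.filter (fun S => (∃ A ∈ T, S ⊆ A) ∧ cl T S = C), g S
        = ∑ S ∈ univ.filter (fun S => (∃ A ∈ T, S ⊆ A) ∧ cl T S ⊆ A), g S := by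
      rw [sum_sigma']
      refine sum_bij' (fun x _ => x.2) (fun S _ => ⟨cl T S, S⟩) ?_ ?_ ?_ ?_ ?_
      · rintro ⟨C, S⟩ h
        simp only [mem_sigma, mem_powerset, mem_filter, mem_univ, true_and] at h ⊢
        exact ⟨h.2.1, by rw [h.2.2]; exact h.1⟩
      · intro S h
        simp only [mem_filter, mem_univ, true_and] at h
        simp only [mem_sigma, mem_powerset, mem_filter, mem_univ, true_and, and_true]
        exact ⟨h.2, h.1⟩
      · rintro ⟨C, S⟩ h
        simp only [mem_sigma, mem_powerset, mem_filter, mem_univ, true_and] at h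
        simp only [h.2.2]
      · intro S _
        rfl
      · rintro ⟨C, S⟩ _
        rfl
    rw [e]
    refine sum_le_sum_of_subset_of_nonneg ?_ (fun S _ _ => hg S)
    intro S hS
    rw [mem_powerset] at hS
    simp only [mem_filter, mem_univ, true_and]
    exact ⟨⟨A, hA, hS⟩, cl_subset hA hS⟩
  · intro C
    exact sum_nonneg (fun S _ => hg S)
  · intro A B C hA hB hC
    obtain ⟨S1, hS1, _⟩ := exists_ne_zero_of_sum_ne_zero hA
    obtain ⟨S2, hS2, _⟩ := exists_ne_zero_of_sum_ne_zero hB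
    obtain ⟨S3, hS3, _⟩ := exists_ne_zero_of_sum_ne_zero hC
    simp only [mem_filter, mem_univ, true_and] at hS1 hS2 hS3
    obtain ⟨⟨A1, hA1, hSA1⟩, e1⟩ := hS1
    obtain ⟨_, e2⟩ := hS2
    obtain ⟨_, e3⟩ := hS3
    rw [← e1, ← e2, ← e3]
    exact cl_tree hT hA1 hSA1
  · refine le_trans ?_ hc
    have e : ∑ C : Finset X, (∑ S ∈ univ.filter (fun S => (∃ A ∈ T, S ⊆ A) ∧ cl T S = C), g S)
        * p ^ C.card
        = ∑ S ∈ univ.filter (fun S => ∃ A ∈ T, S ⊆ A), g S * p ^ (cl T S).card := by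
      simp_rw [sum_mul]
      rw [sum_sigma']
      refine sum_bij' (fun x _ => x.2) (fun S _ => ⟨cl T S, S⟩) ?_ ?_ ?_ ?_ ?_
      · rintro ⟨C, S⟩ h
        simp only [mem_sigma, mem_univ, mem_filter, true_and] at h ⊢
        exact h.1
      · intro S h
        simp only [mem_filter, mem_univ, true_and] at h
        simp only [mem_sigma, mem_filter, mem_univ, true_and, and_true]
        exact h
      · rintro ⟨C, S⟩ h
        simp only [mem_sigma, mem_univ, mem_filter, true_and] at h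
        simp only [h.2]
      · intro S _
        rfl
      · rintro ⟨C, S⟩ h
        simp only [mem_sigma, mem_univ, mem_filter, true_and] at h
        simp only [h.2]
    rw [e]
    calc ∑ S ∈ univ.filter (fun S => ∃ A ∈ T, S ⊆ A), g S * p ^ (cl T S).card
        ≤ ∑ S ∈ univ.filter (fun S => ∃ A ∈ T, S ⊆ A), g S * p ^ S.card := by
          refine sum_le_sum (fun S _ => ?_)
          exact mul_le_mul_of_nonneg_left
            (pow_le_pow_of_le_one hp hp1 (card_le_card (subset_cl T S))) (hg S)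
      _ ≤ ∑ S : Finset X, g S * p ^ S.card :=
          sum_le_sum_of_subset_of_nonneg (filter_subset _ _)
            (fun S _ _ => mul_nonneg (hg S) (pow_nonneg hp _))

/-- Union of `m` tree-like families. -/
theorem fam_main {m : ℕ} (hm : 1 ≤ m) (T : Fin m → Set (Finset X))
    (hT : ∀ j, ∀ A ∈ T j, ∀ B ∈ T j, ∀ C ∈ T j, A ∩ B ⊆ C ∨ A ∩ C ⊆ B)
    (g : Finset X → ℝ) (hg : ∀ S, 0 ≤ g S) (hgT : ∀ j, ∀ A ∈ T j, 1 ≤ ∑ S ∈ A.powerset, g S)
    (p : ℝ) (hp : 0 ≤ p) (hp1 : p ≤ 1) (hc : ∑ S : Finset X, g S * p ^ S.card ≤ 1 / 2) :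
    ∃ G : Finset (Finset X), (∀ j, ∀ A ∈ T j, ∃ S ∈ G, S ⊆ A) ∧
      ∑ S ∈ G, (p / (4104 * m)) ^ S.card ≤ 1 / 2 := by
  classical
  choose G hG hGc using fun j => fam_one (hT j) g hg (hgT j) p hp hp1 hc
  have hmr : (1 : ℝ) ≤ m := by exact_mod_cast hm
  have hm0 : (0 : ℝ) < m := by linarith
  have hne : ∀ j, ∀ S ∈ G j, 1 ≤ S.card := by
    intro j S hS
    by_contra h
    have h0 : S.card = 0 := by omega
    have h1 : (p / 4104) ^ S.card ≤ ∑ S ∈ G j, (p / 4104) ^ S.card :=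
      single_le_sum (f := fun S => (p / 4104) ^ S.card) (fun S _ => by positivity) hS
    rw [h0, pow_zero] at h1
    linarith [hGc j]
  have hpt : ∀ j, ∀ S ∈ G j, (p / (4104 * m)) ^ S.card ≤ (1 / m) * (p / 4104) ^ S.card := by
    intro j S hS
    have e : p / (4104 * (m : ℝ)) = (1 / m) * (p / 4104) := by
      field_simp
    rw [e, mul_pow]
    gcongr
    have h1m : (1 / (m : ℝ)) ≤ 1 := by
      rw [div_le_one hm0]; exact hmr
    calc (1 / (m : ℝ)) ^ S.card ≤ (1 / (m : ℝ)) ^ 1 :=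
          pow_le_pow_of_le_one (by positivity) h1m (hne j S hS)
      _ = 1 / m := pow_one _
  refine ⟨univ.biUnion G, fun j A hA => ?_, ?_⟩
  · obtain ⟨S, hS, hSA⟩ := hG j A hA
    exact ⟨S, mem_biUnion.2 ⟨j, mem_univ _, hS⟩, hSA⟩
  · calc ∑ S ∈ univ.biUnion G, (p / (4104 * m)) ^ S.card
        ≤ ∑ j : Fin m, ∑ S ∈ G j, (p / (4104 * m)) ^ S.card := by
          have e1 : ∀ j : Fin m, ∑ S ∈ G j, (p / (4104 * m)) ^ S.card
              = ∑ S ∈ univ.biUnion G, if S ∈ G j then (p / (4104 * m)) ^ S.card else 0 := by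
            intro j
            rw [← sum_filter]
            refine sum_congr ?_ (fun _ _ => rfl)
            ext S
            simp only [mem_filter, mem_biUnion, mem_univ, true_and]
            exact ⟨fun h => ⟨⟨j, h⟩, h⟩, fun h => h.2⟩
          simp_rw [e1]
          rw [sum_comm]
          refine sum_le_sum (fun S hS => ?_)
          obtain ⟨j, _, hj⟩ := mem_biUnion.1 hS
          have h2 := single_le_sum
            (f := fun j => if S ∈ G j then (p / (4104 * (m : ℝ))) ^ S.card else 0)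
            (s := (univ : Finset (Fin m)))
            (fun i _ => by split_ifs <;> positivity) (mem_univ j)
          simpa [hj] using h2
      _ ≤ ∑ j : Fin m, ∑ S ∈ G j, (1 / m) * (p / 4104) ^ S.card :=
          sum_le_sum (fun j _ => sum_le_sum (fun S hS => hpt j S hS))
      _ ≤ ∑ _j : Fin m, (1 / m) * (1 / 2 : ℝ) := by
          refine sum_le_sum (fun j _ => ?_)
          rw [← mul_sum]
          gcongr
          exact hGc j
      _ = 1 / 2 := by
          rw [sum_const, card_univ, Fintype.card_fin, nsmul_eq_mul]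
          field_simp

end Vale.Agent.P034
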