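import Vale.Agent.P034.Defs

namespace Vale.Agent.P034

open Finset
open scoped ENNReal

variable {X : Type} [Fintype X] [DecidableEq X]

/-- the weight `S ↦ w (R ∪ S)` on the sets disjoint from `R` -/
noncomputable def vv (w : Finset X → ℝ≥0∞) (R S : Finset X) : ℝ≥0∞ :=
  if Disjoint S R then w (R ∪ S) else 0

theorem sum_superset (R : Finset X) (g : Finset X → ℝ≥0∞) :
    ∑ S : Finset X, (if R ⊆ S then g S else 0)
      = ∑ S : Finset X, (if Disjoint S R then g (R ∪ S) else 0) := by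
  rw [← Finset.sum_filter, ← Finset.sum_filter]
  refine Finset.sum_bij' (fun S _ => S \ R) (fun S _ => R ∪ S) ?_ ?_ ?_ ?_ ?_
  · intro S _
    simp [Finset.sdiff_disjoint]
  · intro S _
    simp
  · intro S hS
    simp only [Finset.mem_filter, Finset.mem_univ, true_and] at hS
    exact Finset.union_sdiff_of_subset hS
  · intro S hS
    simp only [Finset.mem_filter, Finset.mem_univ, true_and] at hS
    rw [Finset.union_sdiff_left]
    exact hS.sdiff_eq_left
  · intro S hS
    simp only [Finset.mem_filter, Finset.mem_univ, true_and] at hS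
    rw [Finset.union_sdiff_of_subset hS]

theorem sum_roots (w g : Finset X → ℝ≥0∞) (hg : ∀ S, w S = 0 → g S = 0)
    (Rs : Finset (Finset X)) (h0 : ∀ R ∈ Rs, R.Nonempty)
    (h1 : ∀ S, w S ≠ 0 → S.Nonempty → ∃ R ∈ Rs, R ⊆ S)
    (h2 : ∀ S, w S ≠ 0 → ∀ R ∈ Rs, ∀ R' ∈ Rs, R ⊆ S → R' ⊆ S → R = R') :
    ∑ S : Finset X, g S
      = g ∅ + ∑ R ∈ Rs, ∑ S : Finset X, (if R ⊆ S then g S else 0) := by
  rw [Finset.sum_comm]
  rw [← Finset.add_sum_erase Finset.univ g (Finset.mem_univ ∅)]
  congr 1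
  rw [← Finset.add_sum_erase Finset.univ _ (Finset.mem_univ ∅)]
  have e0 : ∑ R ∈ Rs, (if R ⊆ (∅ : Finset X) then g ∅ else 0) = 0 := by
    apply Finset.sum_eq_zero
    intro R hR
    have : ¬ R ⊆ (∅ : Finset X) := by
      intro h
      have := h0 R hR
      rw [Finset.subset_empty] at h
      rw [h] at this
      exact Finset.not_nonempty_empty this
    rw [if_neg this]
  rw [e0, zero_add]
  apply Finset.sum_congr rfl
  intro S hS
  have hSne : S.Nonempty := Finset.nonempty_iff_ne_empty.mpr (Finset.ne_of_mem_erase hS)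
  by_cases hw : w S = 0
  · rw [hg S hw]
    symm
    apply Finset.sum_eq_zero
    intro R _
    simp
  · obtain ⟨R, hR, hRS⟩ := h1 S hw hSne
    rw [Finset.sum_eq_single R]
    · rw [if_pos hRS]
    · intro R' hR' hne
      have : ¬ R' ⊆ S := fun h => hne (h2 S hw R' hR' R hR h hRS)
      rw [if_neg this]
    · intro h
      exact absurd hR h

theorem W_eq (w : Finset X → ℝ≥0∞) (H : Finset X) :
    W w H = ∑ S : Finset X, (if S ⊆ H then w S else 0) := by
  unfold W
  rw [← Finset.sum_filter]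
  apply Finset.sum_congr _ (fun _ _ => rfl)
  ext S
  simp

theorem W_split (w : Finset X → ℝ≥0∞) (Rs : Finset (Finset X)) (h0 : ∀ R ∈ Rs, R.Nonempty)
    (h1 : ∀ S, w S ≠ 0 → S.Nonempty → ∃ R ∈ Rs, R ⊆ S)
    (h2 : ∀ S, w S ≠ 0 → ∀ R ∈ Rs, ∀ R' ∈ Rs, R ⊆ S → R' ⊆ S → R = R') :
    ∀ H, W w H = w ∅ + ∑ R ∈ Rs, (if R ⊆ H then W (vv w R) H else 0) := by
  intro H
  have hmain := sum_roots w (fun S => if S ⊆ H then w S else 0) (by intro S hS; simp [hS])
    Rs h0 h1 h2
  rw [W_eq, hmain]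
  have he : (if (∅ : Finset X) ⊆ H then w ∅ else 0) = w ∅ := by simp
  rw [he]
  congr 1
  · apply Finset.sum_congr rfl
    intro R _
    rw [sum_superset R (fun S => if S ⊆ H then w S else 0)]
    by_cases hRH : R ⊆ H
    · rw [if_pos hRH, W_eq]
      apply Finset.sum_congr rfl
      intro S _
      unfold vv
      by_cases hd : Disjoint S R
      · by_cases hSH : S ⊆ H
        · have : R ∪ S ⊆ H := Finset.union_subset hRH hSH
          simp [hd, hSH, this]
        · have : ¬ R ∪ S ⊆ H := fun h => hSH (Finset.subset_union_right.trans h)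
          simp [hd, hSH, this]
      · simp [hd]
    · rw [if_neg hRH]
      apply Finset.sum_eq_zero
      intro S _
      have : ¬ R ∪ S ⊆ H := fun h => hRH (Finset.subset_union_left.trans h)
      simp [this]

theorem cst_split (w : Finset X → ℝ≥0∞) (Rs : Finset (Finset X)) (h0 : ∀ R ∈ Rs, R.Nonempty)
    (h1 : ∀ S, w S ≠ 0 → S.Nonempty → ∃ R ∈ Rs, R ⊆ S)
    (h2 : ∀ S, w S ≠ 0 → ∀ R ∈ Rs, ∀ R' ∈ Rs, R ⊆ S → R' ⊆ S → R = R') :
    ∀ p : ℝ≥0∞, cst w p = w ∅ + ∑ R ∈ Rs, p ^ R.card * cst (vv w R) p := by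
  intro p
  unfold cst
  rw [sum_roots w (fun S => w S * p ^ S.card) (by intro S hS; simp [hS]) Rs h0 h1 h2]
  congr 1
  · simp
  · apply Finset.sum_congr rfl
    intro R _
    rw [sum_superset R (fun S => w S * p ^ S.card), Finset.mul_sum]
    apply Finset.sum_congr rfl
    intro S _
    unfold vv
    by_cases hd : Disjoint S R
    · rw [if_pos hd, if_pos hd, Finset.card_union_of_disjoint hd.symm, pow_add]
      ring
    · simp [hd]

end Vale.Agent.P034
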