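import Vale.Agent.P034.Defs
import Vale.Agent.P034.SplitSum

namespace Vale.Agent.P034

open Finset
open scoped ENNReal

variable {X : Type} [Fintype X] [DecidableEq X]

open Classical in
/-- root of `A`: the common part of all members of the support meeting `A` -/
noncomputable def rt (w : Finset X → ℝ≥0∞) (A : Finset X) : Finset X :=
  univ.filter (fun x => ∀ B, w B ≠ 0 → (A ∩ B).Nonempty → x ∈ B)

lemma mem_rt {w : Finset X → ℝ≥0∞} {A : Finset X} {x : X} :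
    x ∈ rt w A ↔ ∀ B, w B ≠ 0 → (A ∩ B).Nonempty → x ∈ B := by
  simp [rt]

lemma rt_sub' {w : Finset X → ℝ≥0∞} {A B : Finset X} (hB : w B ≠ 0)
    (h : (A ∩ B).Nonempty) : rt w A ⊆ B := fun _ hx => mem_rt.mp hx B hB h

lemma rt_sub {w : Finset X → ℝ≥0∞} {A : Finset X} (hA : w A ≠ 0) (h : A.Nonempty) :
    rt w A ⊆ A := rt_sub' hA (by rwa [Finset.inter_self])

lemma rt_nonempty {w : Finset X → ℝ≥0∞} (hw : Tree w) {A : Finset X} (hA : w A ≠ 0)
    (h : A.Nonempty) : (rt w A).Nonempty := by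
  classical
  obtain ⟨B₀, hB₀, hmin⟩ := Finset.exists_min_image
    (univ.filter (fun B : Finset X => w B ≠ 0 ∧ (A ∩ B).Nonempty)) (fun B => (A ∩ B).card)
    ⟨A, by simp [hA, h]⟩
  simp only [Finset.mem_filter, Finset.mem_univ, true_and] at hB₀ hmin
  obtain ⟨x, hx⟩ := hB₀.2
  refine ⟨x, mem_rt.mpr ?_⟩
  intro B hB hAB
  rcases hw A B₀ B hA hB₀.1 hB with h1 | h1
  · exact h1 hx
  · have h2 : A ∩ B ⊆ A ∩ B₀ := Finset.subset_inter Finset.inter_subset_left h1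
    have h3 : A ∩ B = A ∩ B₀ := Finset.eq_of_subset_of_card_le h2 (hmin B ⟨hB, hAB⟩)
    rw [← h3] at hx
    exact (Finset.mem_inter.mp hx).2

lemma meet_trans {w : Finset X → ℝ≥0∞} (hw : Tree w) {A B C : Finset X} (hA : w A ≠ 0)
    (hB : w B ≠ 0) (hC : w C ≠ 0) (h1 : (A ∩ B).Nonempty) (h2 : (A ∩ C).Nonempty) :
    (B ∩ C).Nonempty := by
  rcases hw A B C hA hB hC with h | h
  · obtain ⟨x, hx⟩ := h1
    exact ⟨x, Finset.mem_inter.mpr ⟨(Finset.mem_inter.mp hx).2, h hx⟩⟩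
  · obtain ⟨x, hx⟩ := h2
    exact ⟨x, Finset.mem_inter.mpr ⟨h hx, (Finset.mem_inter.mp hx).2⟩⟩

lemma rt_eq {w : Finset X → ℝ≥0∞} (hw : Tree w) {A B : Finset X} (hA : w A ≠ 0)
    (hB : w B ≠ 0) (h : (A ∩ B).Nonempty) : rt w A = rt w B := by
  ext x
  rw [mem_rt, mem_rt]
  constructor
  · intro hx C hC hBC
    exact hx C hC (meet_trans hw hB hA hC (by rwa [Finset.inter_comm]) hBC)
  · intro hx C hC hAC
    exact hx C hC (meet_trans hw hA hB hC h hAC)

lemma rt_eq_of_subset {w : Finset X → ℝ≥0∞} (hw : Tree w) {A S : Finset X} (hA : w A ≠ 0)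
    (hAn : A.Nonempty) (hS : w S ≠ 0) (h : rt w A ⊆ S) : rt w A = rt w S := by
  apply rt_eq hw hA hS
  obtain ⟨x, hx⟩ := rt_nonempty hw hA hAn
  exact ⟨x, Finset.mem_inter.mpr ⟨rt_sub hA hAn hx, h hx⟩⟩

lemma vv_ne_zero {w : Finset X → ℝ≥0∞} {R S : Finset X} (h : vv w R S ≠ 0) :
    Disjoint S R ∧ w (R ∪ S) ≠ 0 := by
  unfold vv at h
  split_ifs at h with hd
  · exact ⟨hd, h⟩
  · exact absurd rfl h

lemma tree_vv {w : Finset X → ℝ≥0∞} (hw : Tree w) (R : Finset X) : Tree (vv w R) := by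
  intro A B C hA hB hC
  obtain ⟨dA, hA'⟩ := vv_ne_zero hA
  obtain ⟨dB, hB'⟩ := vv_ne_zero hB
  obtain ⟨dC, hC'⟩ := vv_ne_zero hC
  rcases hw _ _ _ hA' hB' hC' with h | h
  · left
    intro x hx
    have hxA := (Finset.mem_inter.mp hx).1
    have hxB := (Finset.mem_inter.mp hx).2
    have := h (Finset.mem_inter.mpr ⟨Finset.mem_union_right R hxA, Finset.mem_union_right R hxB⟩)
    rcases Finset.mem_union.mp this with h' | h'
    · exact absurd h' (Finset.disjoint_left.mp dA hxA)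
    · exact h'
  · right
    intro x hx
    have hxA := (Finset.mem_inter.mp hx).1
    have hxC := (Finset.mem_inter.mp hx).2
    have := h (Finset.mem_inter.mpr ⟨Finset.mem_union_right R hxA, Finset.mem_union_right R hxC⟩)
    rcases Finset.mem_union.mp this with h' | h'
    · exact absurd h' (Finset.disjoint_left.mp dA hxA)
    · exact h'

/-- Decomposition of a tree-like weight: `Rs` = the roots (each is the common part of one class
of nonempty members of the support under meets), `V R` = the ground set of the class,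
`v R S = w (R ∪ S)` for `S` disjoint from `R` with `R ∪ S` in the class. -/
lemma split (w : Finset X → ℝ≥0∞) (hw : Tree w) (U : Finset X) (hU : ∀ S, w S ≠ 0 → S ⊆ U) :
    ∃ (Rs : Finset (Finset X)) (V : Finset X → Finset X) (v : Finset X → Finset X → ℝ≥0∞),
      (∀ R ∈ Rs, R.Nonempty ∧ R ⊆ V R ∧ V R ⊆ U) ∧
      (∀ R ∈ Rs, ∀ R' ∈ Rs, R ≠ R' → Disjoint (V R) (V R')) ∧
      (∀ R ∈ Rs, Tree (v R) ∧ ∀ S, v R S ≠ 0 → S ⊆ V R \ R) ∧
      (∀ H, W w H = w ∅ + ∑ R ∈ Rs, (if R ⊆ H then W (v R) H else 0)) ∧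
      (∀ p : ℝ≥0∞, cst w p = w ∅ + ∑ R ∈ Rs, p ^ R.card * cst (v R) p) := by
  classical
  have hRs : ∀ R ∈ (univ.filter (fun S : Finset X => w S ≠ 0 ∧ S.Nonempty)).image (rt w),
      ∃ A, w A ≠ 0 ∧ A.Nonempty ∧ rt w A = R := by
    intro R hR
    obtain ⟨A, hA, rfl⟩ := Finset.mem_image.mp hR
    simp only [Finset.mem_filter, Finset.mem_univ, true_and] at hA
    exact ⟨A, hA.1, hA.2, rfl⟩
  have h0 : ∀ R ∈ (univ.filter (fun S : Finset X => w S ≠ 0 ∧ S.Nonempty)).image (rt w),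
      R.Nonempty := by
    intro R hR
    obtain ⟨A, hA, hAn, rfl⟩ := hRs R hR
    exact rt_nonempty hw hA hAn
  have h1 : ∀ S, w S ≠ 0 → S.Nonempty →
      ∃ R ∈ (univ.filter (fun S : Finset X => w S ≠ 0 ∧ S.Nonempty)).image (rt w), R ⊆ S := by
    intro S hS hSn
    refine ⟨rt w S, Finset.mem_image_of_mem _ ?_, rt_sub hS hSn⟩
    simp only [Finset.mem_filter, Finset.mem_univ, true_and]
    exact ⟨hS, hSn⟩
  have h3 : ∀ R ∈ (univ.filter (fun S : Finset X => w S ≠ 0 ∧ S.Nonempty)).image (rt w),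
      ∀ S, w S ≠ 0 → R ⊆ S → R = rt w S := by
    intro R hR S hS hRS
    obtain ⟨A, hA, hAn, rfl⟩ := hRs R hR
    exact rt_eq_of_subset hw hA hAn hS hRS
  have h2 : ∀ S, w S ≠ 0 →
      ∀ R ∈ (univ.filter (fun S : Finset X => w S ≠ 0 ∧ S.Nonempty)).image (rt w),
      ∀ R' ∈ (univ.filter (fun S : Finset X => w S ≠ 0 ∧ S.Nonempty)).image (rt w),
      R ⊆ S → R' ⊆ S → R = R' := by
    intro S hS R hR R' hR' hRS hRS'
    rw [h3 R hR S hS hRS, h3 R' hR' S hS hRS']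
  refine ⟨(univ.filter (fun S : Finset X => w S ≠ 0 ∧ S.Nonempty)).image (rt w),
    fun R => (univ.filter (fun S : Finset X => w S ≠ 0 ∧ R ⊆ S)).biUnion id, vv w,
    ?_, ?_, ?_, W_split w _ h0 h1 h2, cst_split w _ h0 h1 h2⟩
  · intro R hR
    refine ⟨h0 R hR, ?_, ?_⟩
    · obtain ⟨A, hA, hAn, rfl⟩ := hRs R hR
      intro x hx
      exact Finset.mem_biUnion.mpr ⟨A, by simp [hA, rt_sub hA hAn], rt_sub hA hAn hx⟩
    · intro x hx
      obtain ⟨S, hS, hxS⟩ := Finset.mem_biUnion.mp hx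
      simp only [Finset.mem_filter, Finset.mem_univ, true_and] at hS
      exact hU S hS.1 hxS
  · intro R hR R' hR' hne
    rw [Finset.disjoint_left]
    intro x hx hx'
    obtain ⟨S, hS, hxS⟩ := Finset.mem_biUnion.mp hx
    obtain ⟨S', hS', hxS'⟩ := Finset.mem_biUnion.mp hx'
    simp only [Finset.mem_filter, Finset.mem_univ, true_and] at hS hS'
    apply hne
    rw [h3 R hR S hS.1 hS.2, h3 R' hR' S' hS'.1 hS'.2]
    exact rt_eq hw hS.1 hS'.1 ⟨x, Finset.mem_inter.mpr ⟨hxS, hxS'⟩⟩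
  · intro R hR
    refine ⟨tree_vv hw R, ?_⟩
    intro S hS x hx
    obtain ⟨hd, hS'⟩ := vv_ne_zero hS
    rw [Finset.mem_sdiff]
    refine ⟨Finset.mem_biUnion.mpr ⟨R ∪ S, ?_, Finset.mem_union_right R hx⟩,
      Finset.disjoint_left.mp hd hx⟩
    simp only [Finset.mem_filter, Finset.mem_univ, true_and]
    exact ⟨hS', Finset.subset_union_left⟩

end Vale.Agent.P034
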