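import Vale.Agent.P034.Sum
import Vale.Agent.P034.Split

namespace Vale.Agent.P034

open Finset
open scoped ENNReal

variable {X : Type} [Fintype X] [DecidableEq X]

lemma const_mul_pow_le {p q C : ℝ≥0∞} (hC : 1 ≤ C) (hq : C * q ≤ p) {m : ℕ} (hm : 1 ≤ m) :
    C * q ^ m ≤ p ^ m := by
  calc C * q ^ m ≤ C ^ m * q ^ m := by
        gcongr
        calc C = C ^ 1 := (pow_one C).symm
          _ ≤ C ^ m := pow_le_pow_right₀ hC hm
    _ = (C * q) ^ m := (mul_pow C q m).symm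
    _ ≤ p ^ m := by gcongr

/-- covers of one class from covers of the class with its root removed -/
lemma class_cover {q : ℝ≥0∞} {R VR : Finset X} (hR : R ⊆ VR) (v : Finset X → ℝ≥0∞)
    (c : ℤ → ℝ≥0∞) (hc : ∀ k, CoverAt q (VR \ R) {H | (2 : ℝ≥0∞) ^ k ≤ W v H} (c k)) (k : ℤ) :
    CoverAt q VR {H | (2 : ℝ≥0∞) ^ k ≤ (if R ⊆ H then W v H else 0)} (q ^ R.card * c k) := by
  refine ((CoverAt.single q R).prod (hc k) disjoint_sdiff).mono ?_ ?_ le_rfl
  · rw [union_sdiff_of_subset hR]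
  · intro H hH
    simp only [Set.mem_ofPred_eq] at hH
    by_cases h : R ⊆ H
    · rw [if_pos h] at hH
      exact ⟨h, hH⟩
    · rw [if_neg h] at hH
      exfalso
      have h0 : (2 : ℝ≥0∞) ^ k ≠ 0 := (ENNReal.zpow_pos (by norm_num) (by norm_num) k).ne'
      exact h0 (nonpos_iff_eq_zero.mp hH)

/-- The main induction. -/
lemma core {p q : ℝ≥0∞} (hq : 513 * q ≤ p) : ∀ (n : ℕ) (U : Finset X) (w : Finset X → ℝ≥0∞),
    U.card ≤ n → Tree w → (∀ S, w S ≠ 0 → S ⊆ U) →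
    ∃ c : ℤ → ℝ≥0∞, (∀ k, CoverAt q U {H | (2 : ℝ≥0∞) ^ k ≤ W w H} (c k)) ∧
      ∑' k : ℤ, (2 : ℝ≥0∞) ^ k * c k ≤ 4 * cst w p := by
  intro n
  induction n with
  | zero =>
    intro U w hn hw hU
    obtain ⟨Rs, V, v, h1, h2, h3, h4, h5⟩ := split w hw U hU
    have hRs : Rs = ∅ := by
      by_contra hne
      obtain ⟨R, hR⟩ := nonempty_iff_ne_empty.mpr hne
      obtain ⟨⟨x, hx⟩, hRV, hVU⟩ := h1 R hR
      have : U = ∅ := card_eq_zero.mp (Nat.le_zero.mp hn)
      rw [this] at hVU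
      exact absurd (hVU (hRV hx)) (notMem_empty x)
    subst hRs
    obtain ⟨c, hc, hs⟩ := sum_lemma (q := q) (ι := Finset X) ∅ U V (by simp) (by simp)
      (fun R H => if R ⊆ H then W (v R) H else 0) (fun _ _ => 0) (w ∅) (by simp)
    refine ⟨c, fun k => ?_, ?_⟩
    · refine (hc k).mono Subset.rfl (fun H hH => ?_) le_rfl
      simp only [Set.mem_ofPred_eq] at hH ⊢
      rwa [← h4 H]
    · refine hs.trans ?_
      rw [h5 p]
      simp
  | succ n ih =>
    intro U w hn hw hU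
    obtain ⟨Rs, V, v, h1, h2, h3, h4, h5⟩ := split w hw U hU
    have hcl : ∀ R : Finset X, ∃ c : ℤ → ℝ≥0∞, R ∈ Rs →
        (∀ k, CoverAt q (V R \ R) {H | (2 : ℝ≥0∞) ^ k ≤ W (v R) H} (c k)) ∧
        ∑' k : ℤ, (2 : ℝ≥0∞) ^ k * c k ≤ 4 * cst (v R) p := by
      intro R
      by_cases hR : R ∈ Rs
      · obtain ⟨hne, hRV, hVU⟩ := h1 R hR
        have hcard : (V R \ R).card ≤ n := by
          have : (V R \ R).card < U.card := by
            apply card_lt_card
            refine ⟨sdiff_subset.trans hVU, fun hsub => ?_⟩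
            obtain ⟨x, hx⟩ := hne
            have := hsub (hVU (hRV hx))
            exact (mem_sdiff.mp this).2 hx
          omega
        obtain ⟨c, hc⟩ := ih (V R \ R) (v R) hcard (h3 R hR).1 (h3 R hR).2
        exact ⟨c, fun _ => hc⟩
      · exact ⟨0, fun h => absurd h hR⟩
    choose cR hcR using hcl
    obtain ⟨c, hc, hs⟩ := sum_lemma (q := q) (ι := Finset X) Rs U V h2 (fun R hR => (h1 R hR).2.2)
      (fun R H => if R ⊆ H then W (v R) H else 0) (fun R k => q ^ R.card * cR R k) (w ∅)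
      (fun R hR k => class_cover (h1 R hR).2.1 (v R) (cR R) (hcR R hR).1 k)
    refine ⟨c, fun k => ?_, ?_⟩
    · refine (hc k).mono Subset.rfl (fun H hH => ?_) le_rfl
      simp only [Set.mem_ofPred_eq] at hH ⊢
      rwa [← h4 H]
    · refine hs.trans ?_
      rw [h5 p, mul_add]
      gcongr 4 * w ∅ + ?_
      rw [mul_sum, mul_sum]
      apply sum_le_sum
      intro R hR
      have e : ∑' k : ℤ, (2 : ℝ≥0∞) ^ k * (q ^ R.card * cR R k) =
          q ^ R.card * ∑' k : ℤ, (2 : ℝ≥0∞) ^ k * cR R k := by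
        rw [← ENNReal.tsum_mul_left]
        refine tsum_congr fun k => by ring
      rw [e]
      have hm : 1 ≤ R.card := card_pos.mpr (h1 R hR).1
      calc 513 * (q ^ R.card * ∑' k : ℤ, (2 : ℝ≥0∞) ^ k * cR R k)
          ≤ 513 * (q ^ R.card * (4 * cst (v R) p)) := by
            gcongr
            exact (hcR R hR).2
        _ = (513 * q ^ R.card) * (4 * cst (v R) p) := by ring
        _ ≤ p ^ R.card * (4 * cst (v R) p) := by
            gcongr
            exact const_mul_pow_le (by norm_num) hq hm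
        _ = 4 * (p ^ R.card * cst (v R) p) := by ring

lemma final_ennreal {p q : ℝ≥0∞} (hq : 4104 * q ≤ p) (w : Finset X → ℝ≥0∞) (hw : Tree w)
    (hc : cst w p ≤ 1 / 2) : CoverAt q univ {H | 1 ≤ W w H} (1 / 2) := by
  have hq' : 513 * q ≤ p := le_trans (by gcongr; norm_num) hq
  obtain ⟨Rs, V, v, h1, h2, h3, h4, h5⟩ := split w hw univ (fun _ _ => subset_univ _)
  have hcl : ∀ R : Finset X, ∃ c : ℤ → ℝ≥0∞, R ∈ Rs →
      (∀ k, CoverAt q (V R \ R) {H | (2 : ℝ≥0∞) ^ k ≤ W (v R) H} (c k)) ∧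
      ∑' k : ℤ, (2 : ℝ≥0∞) ^ k * c k ≤ 4 * cst (v R) p := by
    intro R
    by_cases hR : R ∈ Rs
    · obtain ⟨c, hc⟩ := core hq' (V R \ R).card (V R \ R) (v R) le_rfl (h3 R hR).1 (h3 R hR).2
      exact ⟨c, fun _ => hc⟩
    · exact ⟨0, fun h => absurd h hR⟩
  choose cR hcR using hcl
  obtain ⟨c, hcov, hs⟩ := sum_lemma (q := q) (ι := Finset X) Rs univ V h2
    (fun R hR => (h1 R hR).2.2)
    (fun R H => if R ⊆ H then W (v R) H else 0) (fun R k => q ^ R.card * cR R k) 0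
    (fun R hR k => class_cover (h1 R hR).2.1 (v R) (cR R) (hcR R hR).1 k)
  have hw0 : w ∅ ≤ 1 / 2 := by
    refine le_trans ?_ hc
    rw [h5 p]
    exact le_self_add
  have hsum : ∑ R ∈ Rs, p ^ R.card * cst (v R) p ≤ 1 / 2 := by
    refine le_trans ?_ hc
    rw [h5 p]
    exact le_add_self
  refine (hcov (-1)).mono Subset.rfl (fun H hH => ?_) ?_
  · simp only [Set.mem_ofPred_eq] at hH ⊢
    rw [h4 H] at hH
    rw [zero_add]
    have h12 : (2 : ℝ≥0∞) ^ (-1 : ℤ) = 1 / 2 := by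
      rw [zpow_neg_one, one_div]
    rw [h12]
    have : (1 : ℝ≥0∞) ≤ 1 / 2 + ∑ R ∈ Rs, (if R ⊆ H then W (v R) H else 0) :=
      hH.trans (by gcongr)
    have h1' : (1 / 2 : ℝ≥0∞) + 1 / 2 = 1 := ENNReal.add_halves 1
    have this' : (1 / 2 : ℝ≥0∞) + 1 / 2 ≤
        1 / 2 + ∑ R ∈ Rs, (if R ⊆ H then W (v R) H else 0) := h1'.le.trans this
    have hne : (1 / 2 : ℝ≥0∞) ≠ ⊤ := by
      rw [one_div]
      exact ENNReal.inv_ne_top.mpr (by norm_num)
    exact (ENNReal.add_le_add_iff_left hne).mp this'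
  · have hle : (2 : ℝ≥0∞) ^ (-1 : ℤ) * c (-1) ≤ ∑' k : ℤ, (2 : ℝ≥0∞) ^ k * c k :=
      ENNReal.le_tsum (-1)
    have hb : ∑' k : ℤ, (2 : ℝ≥0∞) ^ k * c k ≤
        513 * ∑ R ∈ Rs, q ^ R.card * (4 * cst (v R) p) := by
      refine hs.trans ?_
      rw [mul_zero, zero_add]
      gcongr with R hR
      have e : ∑' k : ℤ, (2 : ℝ≥0∞) ^ k * (q ^ R.card * cR R k) =
          q ^ R.card * ∑' k : ℤ, (2 : ℝ≥0∞) ^ k * cR R k := by
        rw [← ENNReal.tsum_mul_left]
        refine tsum_congr fun k => by ring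
      rw [e]
      gcongr
      exact (hcR R hR).2
    have h2 : c (-1) = 2 * ((2 : ℝ≥0∞) ^ (-1 : ℤ) * c (-1)) := by
      rw [← mul_assoc, zpow_neg_one, ENNReal.mul_inv_cancel (by norm_num) (by norm_num), one_mul]
    calc c (-1) = 2 * ((2 : ℝ≥0∞) ^ (-1 : ℤ) * c (-1)) := h2
      _ ≤ 2 * (513 * ∑ R ∈ Rs, q ^ R.card * (4 * cst (v R) p)) := by
          exact mul_le_mul_right (hle.trans hb) 2
      _ = ∑ R ∈ Rs, (4104 * q ^ R.card) * cst (v R) p := by
          rw [mul_sum, mul_sum]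
          refine sum_congr rfl fun R _ => ?_
          ring
      _ ≤ ∑ R ∈ Rs, p ^ R.card * cst (v R) p := by
          apply sum_le_sum
          intro R hR
          gcongr
          exact const_mul_pow_le (by norm_num) hq (card_pos.mpr (h1 R hR).1)
      _ ≤ 1 / 2 := hsum

end Vale.Agent.P034
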