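import Mathlib

namespace Vale.Agent.P034

open Finset
open scoped ENNReal

/-- shift of a dyadic sum -/
lemma tsum_shift (D : ℤ → ℝ≥0∞) (r : ℕ) :
    ∑' k : ℤ, (2 : ℝ≥0∞) ^ k * D (k - r) = 2 ^ r * ∑' k : ℤ, (2 : ℝ≥0∞) ^ k * D k := by
  rw [← (Equiv.addRight (r : ℤ)).tsum_eq (fun k : ℤ => (2 : ℝ≥0∞) ^ k * D (k - r)),
    ← ENNReal.tsum_mul_left]
  refine tsum_congr (fun k => ?_)
  simp only [Equiv.coe_addRight, add_sub_cancel_right]
  rw [ENNReal.zpow_add (by norm_num) (by norm_num), zpow_natCast]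
  ring

/-- the multi-item part of the sum -/
lemma tsum_multi (D : ℤ → ℝ≥0∞) :
    ∑' k : ℤ, (2 : ℝ≥0∞) ^ k * (∑' r : ℕ, 3 * D (k - 8 - r) * (1 / 4) ^ (r + 8))
      ≤ ∑' k : ℤ, (2 : ℝ≥0∞) ^ k * D k := by
  have h1 : ∑' k : ℤ, (2 : ℝ≥0∞) ^ k * (∑' r : ℕ, 3 * D (k - 8 - r) * (1 / 4) ^ (r + 8))
      = ∑' r : ℕ, (3 * (1 / 2) ^ (r + 8)) * ∑' k : ℤ, (2 : ℝ≥0∞) ^ k * D k := by
    simp_rw [← ENNReal.tsum_mul_left]
    rw [ENNReal.tsum_comm]
    refine tsum_congr (fun r => ?_)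
    have h2 := tsum_shift D (r + 8)
    have h3 : ∀ k : ℤ, (2 : ℝ≥0∞) ^ k * (3 * D (k - 8 - r) * (1 / 4) ^ (r + 8))
        = (3 * (1 / 4) ^ (r + 8)) * ((2 : ℝ≥0∞) ^ k * D (k - ((r + 8 : ℕ) : ℤ))) := by
      intro k
      have : k - ((r + 8 : ℕ) : ℤ) = k - 8 - r := by push_cast; ring
      rw [this]
      ring
    simp_rw [h3]
    rw [ENNReal.tsum_mul_left, ENNReal.tsum_mul_left, h2, ← mul_assoc]
    congr 1
    rw [mul_assoc, ← mul_pow]
    congr 2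
    rw [show (4 : ℝ≥0∞) = 2 * 2 by norm_num, one_div, one_div,
      ENNReal.mul_inv (by norm_num) (by norm_num), mul_assoc,
      ENNReal.inv_mul_cancel (by norm_num) (by norm_num), mul_one]
  rw [h1, ENNReal.tsum_mul_right]
  have h4 : ∑' r : ℕ, (3 * (1 / 2 : ℝ≥0∞) ^ (r + 8)) ≤ 1 := by
    simp_rw [pow_add]
    rw [show (∑' r : ℕ, (3 * ((1 / 2 : ℝ≥0∞) ^ r * (1 / 2) ^ 8)))
        = (3 * (1 / 2) ^ 8) * ∑' r : ℕ, (1 / 2 : ℝ≥0∞) ^ r by
      rw [← ENNReal.tsum_mul_left]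
      refine tsum_congr (fun r => ?_)
      ring]
    rw [ENNReal.tsum_geometric]
    have h5 : (1 - (1 / 2 : ℝ≥0∞))⁻¹ = 2 := by
      rw [one_div, ENNReal.one_sub_inv_two, inv_inv]
    rw [h5]
    have h6 : (1 / 2 : ℝ≥0∞) * 2 = 1 := by
      rw [one_div, ENNReal.inv_mul_cancel (by norm_num) (by norm_num)]
    have h7 : (1 / 2 : ℝ≥0∞) ≤ 1 := by
      rw [one_div]
      exact ENNReal.inv_le_one.2 (by norm_num)
    have h8 : (4 : ℝ≥0∞) * (1 / 2) ^ 2 = 1 := by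
      rw [show (4 : ℝ≥0∞) = 2 ^ 2 by norm_num, ← mul_pow, mul_comm, h6, one_pow]
    calc 3 * (1 / 2 : ℝ≥0∞) ^ 8 * 2 = 3 * (1 / 2) ^ 2 * ((1 / 2) ^ 5 * ((1 / 2) * 2)) := by ring
      _ ≤ 4 * (1 / 2) ^ 2 * (1 * 1) := by
        gcongr
        · norm_num
        · exact pow_le_one' h7 5
        · exact h6.le
      _ = 1 := by rw [h8]; norm_num
  calc _ ≤ 1 * ∑' k : ℤ, (2 : ℝ≥0∞) ^ k * D k := by gcongr
    _ = _ := one_mul _

open Classical in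
lemma tsum_dyadic_le (y : ℝ≥0∞) :
    ∑' k : ℤ, (2 : ℝ≥0∞) ^ k * (if (2 : ℝ≥0∞) ^ k ≤ y then 1 else 0) ≤ 2 * y := by
  rcases eq_or_ne y 0 with rfl | hy0
  · have : ∀ k : ℤ, (2 : ℝ≥0∞) ^ k * (if (2 : ℝ≥0∞) ^ k ≤ 0 then 1 else 0) = 0 := by
      intro k
      have h := ENNReal.zpow_pos (a := 2) (by norm_num) (by norm_num) k
      rw [if_neg (not_le.2 h), mul_zero]
    simp_rw [this]
    simp
  rcases eq_or_ne y ⊤ with rfl | hyt
  · rw [ENNReal.mul_top (by norm_num)]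
    exact le_top
  obtain ⟨n, hn1, hn2⟩ := ENNReal.exists_mem_Ico_zpow (x := y) (y := 2) hy0 hyt
    (by norm_num) (by norm_num)
  have hinj : Function.Injective (fun j : ℕ => n - (j : ℤ)) := by
    intro a b hab
    simp only at hab
    omega
  have hsupp : Function.support (fun k : ℤ => (2 : ℝ≥0∞) ^ k *
      (if (2 : ℝ≥0∞) ^ k ≤ y then 1 else 0)) ⊆ Set.range (fun j : ℕ => n - (j : ℤ)) := by
    intro k hk
    rw [Function.mem_support] at hk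
    have hk2 : (2 : ℝ≥0∞) ^ k ≤ y := by
      by_contra h
      exact hk (by rw [if_neg h, mul_zero])
    have hk3 : k ≤ n := by
      by_contra h
      have h2 : n + 1 ≤ k := by omega
      have h3 := ENNReal.zpow_le_of_le (x := 2) (by norm_num) h2
      exact absurd (lt_of_lt_of_le hn2 h3) (not_lt.2 hk2)
    exact ⟨(n - k).toNat, by simp only; omega⟩
  rw [← hinj.tsum_eq hsupp]
  calc ∑' j : ℕ, (2 : ℝ≥0∞) ^ (n - (j : ℤ)) * (if (2 : ℝ≥0∞) ^ (n - (j : ℤ)) ≤ y then 1 else 0)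
      ≤ ∑' j : ℕ, (2 : ℝ≥0∞) ^ n * (1 / 2) ^ j := by
        refine ENNReal.tsum_le_tsum (fun j => ?_)
        calc (2 : ℝ≥0∞) ^ (n - (j : ℤ)) * (if (2 : ℝ≥0∞) ^ (n - (j : ℤ)) ≤ y then 1 else 0)
            ≤ (2 : ℝ≥0∞) ^ (n - (j : ℤ)) * 1 := by
              gcongr
              split_ifs <;> simp
          _ = (2 : ℝ≥0∞) ^ n * (1 / 2) ^ j := by
              rw [mul_one, ENNReal.zpow_sub (by norm_num) (by norm_num), zpow_natCast, one_div,
                ENNReal.inv_pow]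
    _ = (2 : ℝ≥0∞) ^ n * 2 := by
        rw [ENNReal.tsum_mul_left, ENNReal.tsum_geometric, one_div, ENNReal.one_sub_inv_two,
          inv_inv]
    _ ≤ 2 * y := by
        rw [mul_comm]
        gcongr

/-- `D^m/m! ≤ (3D/m)^m ≤ 3 D (1/4)^(m-1)` when `12 D ≤ m`. -/
lemma num_bound (D : ℝ≥0∞) (m : ℕ) (hm : 1 ≤ m) (h : 12 * D ≤ (m : ℝ≥0∞)) :
    D ^ m / (m.factorial : ℝ≥0∞) ≤ 3 * D * (1 / 4) ^ (m - 1) := by
  have hD : D ≠ ⊤ := by
    rintro rfl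
    rw [ENNReal.mul_top (by norm_num)] at h
    exact absurd h (not_le.2 (ENNReal.natCast_lt_top m))
  lift D to NNReal using hD
  obtain ⟨p, rfl⟩ : ∃ p, m = p + 1 := ⟨m - 1, by omega⟩
  have h' : 12 * D ≤ ((p + 1 : ℕ) : NNReal) := by exact_mod_cast h
  have hfac : ((p + 1).factorial : NNReal) ≠ 0 := by
    exact_mod_cast (Nat.factorial_pos _).ne'
  have key : D ^ (p + 1) / ((p + 1).factorial : NNReal) ≤ 3 * D * (1 / 4) ^ p := by
    have hR : ((D : ℝ)) ^ (p + 1) / ((p + 1).factorial : ℝ) ≤ 3 * D * (1 / 4) ^ p := by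
      have hx0 : (0 : ℝ) ≤ D := D.coe_nonneg
      have hx : 12 * (D : ℝ) ≤ ((p : ℝ) + 1) := by exact_mod_cast h'
      have hfp : (0 : ℝ) < ((p + 1).factorial : ℝ) := by
        exact_mod_cast Nat.factorial_pos _
      have hmp : (0 : ℝ) < (p : ℝ) + 1 := by positivity
      have hst := Real.pow_div_factorial_le_exp ((p : ℝ) + 1) hmp.le (p + 1)
      have he : Real.exp ((p : ℝ) + 1) ≤ 3 ^ (p + 1) := by
        have h1 : Real.exp ((p : ℝ) + 1) = Real.exp 1 ^ (p + 1) := by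
          rw [← Real.exp_nat_mul]
          push_cast
          ring_nf
        rw [h1]
        exact pow_le_pow_left₀ (Real.exp_pos 1).le
          (by linarith [Real.exp_one_lt_d9]) (p + 1)
      have h3 : ((p : ℝ) + 1) ^ (p + 1) ≤ 3 ^ (p + 1) * ((p + 1).factorial : ℝ) := by
        rw [div_le_iff₀ hfp] at hst
        exact hst.trans (by gcongr)
      rw [div_le_iff₀ hfp]
      have h4 : (D : ℝ) ^ p ≤ (((p : ℝ) + 1) / 12) ^ p := by
        apply pow_le_pow_left₀ hx0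
        linarith
      have h5 : (D : ℝ) ^ (p + 1) ≤ D * (((p : ℝ) + 1) / 12) ^ p := by
        rw [pow_succ, mul_comm]
        gcongr
      refine h5.trans ?_
      have h6 : (((p : ℝ) + 1) / 12) ^ p = ((p : ℝ) + 1) ^ p * (1 / 12) ^ p := by
        rw [← mul_pow]; congr 1; ring
      have h7 : (1 / 12 : ℝ) ^ p * 3 ^ p = (1 / 4) ^ p := by
        rw [← mul_pow]; norm_num
      have h8 : ((p : ℝ) + 1) ^ p ≤ 3 ^ (p + 1) * ((p + 1).factorial : ℝ) := by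
        refine le_trans ?_ h3
        exact pow_le_pow_right₀ (by linarith [Nat.cast_nonneg (α := ℝ) p]) (Nat.le_succ p)
      calc (D : ℝ) * (((p : ℝ) + 1) / 12) ^ p
          = D * (((p : ℝ) + 1) ^ p * (1 / 12) ^ p) := by rw [h6]
        _ ≤ D * ((3 ^ (p + 1) * ((p + 1).factorial : ℝ)) * (1 / 12) ^ p) := by gcongr
        _ = 3 * D * ((1 / 12) ^ p * 3 ^ p) * ((p + 1).factorial : ℝ) := by ring
        _ = 3 * D * (1 / 4) ^ p * ((p + 1).factorial : ℝ) := by rw [h7]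
    exact_mod_cast hR
  have e1 : ((D : ℝ≥0∞)) ^ (p + 1) / ((p + 1).factorial : ℝ≥0∞)
      = ((D ^ (p + 1) / ((p + 1).factorial : NNReal) : NNReal) : ℝ≥0∞) := by
    rw [ENNReal.coe_div hfac]
    push_cast
    rfl
  have e2 : 3 * (D : ℝ≥0∞) * (1 / 4) ^ p = ((3 * D * (1 / 4) ^ p : NNReal) : ℝ≥0∞) := by
    rw [ENNReal.coe_mul, ENNReal.coe_mul, ENNReal.coe_pow, ENNReal.coe_div (by norm_num)]
    rfl
  rw [show p + 1 - 1 = p by omega, e1, e2]
  exact_mod_cast key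

end Vale.Agent.P034
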