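import Mathlib

namespace Vale.Agent.P034

open Finset
open scoped ENNReal

lemma two_zpow_pos (k : ℤ) : (2 : ℝ≥0∞) ^ k ≠ 0 := (ENNReal.zpow_pos (by norm_num) (by norm_num) k).ne'

lemma two_zpow_ne_top (k : ℤ) : (2 : ℝ≥0∞) ^ k ≠ ∞ :=
  (ENNReal.zpow_lt_top (by norm_num) (by norm_num) k).ne

/-- A positive number below `2^(k-7)` is at most `∑_{r ≥ 0} 2^(k-7-r) 1[2^(k-8-r) ≤ f]`. -/
lemma le_tsum_scales (k : ℤ) (f : ℝ≥0∞) (hf : f < (2 : ℝ≥0∞) ^ (k - 7)) :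
    f ≤ ∑' r : ℕ, (if (2 : ℝ≥0∞) ^ (k - 8 - (r : ℤ)) ≤ f then (2 : ℝ≥0∞) ^ (k - 7 - (r : ℤ)) else 0) := by
  rcases eq_or_ne f 0 with h0 | h0
  · rw [h0]; exact bot_le
  have htop : f ≠ ∞ := (lt_of_lt_of_le hf le_top).ne
  obtain ⟨n, hn1, hn2⟩ := ENNReal.exists_mem_Ico_zpow h0 htop
    (show (1 : ℝ≥0∞) < 2 by norm_num) (by norm_num)
  have hn : n < k - 7 := by
    by_contra hcon
    rw [not_lt] at hcon
    have := ENNReal.zpow_le_of_le (x := 2) (by norm_num) hcon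
    exact absurd (lt_of_le_of_lt (this.trans hn1) hf) (lt_irrefl _)
  have hr : k - 8 - ((k - 8 - n).toNat : ℤ) = n := by
    rw [Int.toNat_of_nonneg (by omega)]; ring
  have hr' : k - 7 - ((k - 8 - n).toNat : ℤ) = n + 1 := by
    rw [Int.toNat_of_nonneg (by omega)]; ring
  refine le_trans ?_ (ENNReal.le_tsum (k - 8 - n).toNat)
  rw [hr, hr', if_pos hn1]
  exact hn2.le

lemma tsum_lin_geom : ∑' r : ℕ, ((r : ℝ≥0∞) + 8) * (1 / 2) ^ r = 18 := by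
  have h1 : HasSum (fun n : ℕ => (n : ℝ) * (1 / 2 : ℝ) ^ n) ((1 / 2) / (1 - 1 / 2) ^ 2) :=
    hasSum_coe_mul_geometric_of_norm_lt_one (by norm_num)
  have h2 : HasSum (fun n : ℕ => (8 : ℝ) * (1 / 2 : ℝ) ^ n) (8 * 2) :=
    hasSum_geometric_two.mul_left 8
  have h3 : HasSum (fun n : ℕ => ((n : ℝ) + 8) * (1 / 2 : ℝ) ^ n) 18 := by
    have := h1.add h2
    have e : (1 / 2 : ℝ) / (1 - 1 / 2) ^ 2 + 8 * 2 = 18 := by norm_num
    rw [e] at this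
    convert this using 2
    ring
  have h4 := ENNReal.ofReal_tsum_of_nonneg (f := fun n : ℕ => ((n : ℝ) + 8) * (1 / 2 : ℝ) ^ n)
    (fun n => by positivity) h3.summable
  rw [h3.tsum_eq] at h4
  have h5 : ENNReal.ofReal 18 = 18 := by
    rw [ENNReal.ofReal_eq_coe_nnreal (by norm_num)]
    rfl
  rw [h5] at h4
  rw [h4]
  refine tsum_congr fun n => ?_
  rw [ENNReal.ofReal_mul (by positivity), ENNReal.ofReal_pow (by norm_num),
    ENNReal.ofReal_add (by positivity) (by norm_num), ENNReal.ofReal_natCast,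
    ENNReal.ofReal_div_of_pos (by norm_num)]
  simp

lemma pigeon_num {a E Y : ℝ≥0∞} (hYtop : Y ≠ ∞) (hY0 : Y ≠ 0) (ha : 2 * a < 64 * Y)
    (hE : 192 * E < 64 * Y) (h2 : 64 * Y ≤ a + (24 * E + 9 * Y)) : False := by
  have hatop : a ≠ ∞ := by
    rintro rfl
    simp at ha
  have hEtop : E ≠ ∞ := by
    rintro rfl
    simp at hE
  lift Y to NNReal using hYtop
  lift a to NNReal using hatop
  lift E to NNReal using hEtop
  have h2' : 64 * (Y : ℝ) ≤ a + (24 * E + 9 * Y) := by exact_mod_cast h2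
  have ha' : 2 * (a : ℝ) < 64 * Y := by exact_mod_cast ha
  have hE' : 192 * (E : ℝ) < 64 * Y := by exact_mod_cast hE
  have hY0' : 0 < (Y : ℝ) := by
    have : Y ≠ 0 := by exact_mod_cast hY0
    exact_mod_cast pos_iff_ne_zero.2 this
  linarith

/-- Pigeonhole. If `2^k ≤ a + ∑ f i` with `2 a < 2^k`, all `f i < 2^(k-7)`, and
`∑_j 2^j D j` is less than `2^k/192`, then for some `r` at least
`⌊12 D(k-8-r)⌋ + r + 9` of the `f i` are at least `2^(k-8-r)`. -/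
lemma pigeon {ι : Type} (s : Finset ι) (f : ι → ℝ≥0∞) (a : ℝ≥0∞) (D : ℤ → ℝ≥0∞) (k : ℤ)
    (ha : 2 * a < (2 : ℝ≥0∞) ^ k) (hE : 192 * (∑' j : ℤ, (2 : ℝ≥0∞) ^ j * D j) < (2 : ℝ≥0∞) ^ k)
    (hf : ∀ i ∈ s, f i < (2 : ℝ≥0∞) ^ (k - 7)) (hsum : (2 : ℝ≥0∞) ^ k ≤ a + ∑ i ∈ s, f i) :
    ∃ r : ℕ, ⌊12 * (D (k - 8 - (r : ℤ))).toReal⌋₊ + r + 9 ≤
      (s.filter (fun i => (2 : ℝ≥0∞) ^ (k - 8 - (r : ℤ)) ≤ f i)).card := by
  by_contra hcon
  push Not at hcon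
  set E : ℝ≥0∞ := ∑' j : ℤ, (2 : ℝ≥0∞) ^ j * D j with hEdef
  have hN : ∀ r : ℕ, (((s.filter (fun i => (2 : ℝ≥0∞) ^ (k - 8 - (r : ℤ)) ≤ f i)).card : ℕ) : ℝ≥0∞)
      ≤ 12 * D (k - 8 - (r : ℤ)) + ((r : ℝ≥0∞) + 8) := by
    intro r
    have h1 := hcon r
    have h2 : (s.filter (fun i => (2 : ℝ≥0∞) ^ (k - 8 - (r : ℤ)) ≤ f i)).card
        ≤ ⌊12 * (D (k - 8 - (r : ℤ))).toReal⌋₊ + (r + 8) := by omega
    have h3 : (((s.filter (fun i => (2 : ℝ≥0∞) ^ (k - 8 - (r : ℤ)) ≤ f i)).card : ℕ) : ℝ≥0∞)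
        ≤ ((⌊12 * (D (k - 8 - (r : ℤ))).toReal⌋₊ : ℕ) : ℝ≥0∞) + ((r : ℝ≥0∞) + 8) := by
      exact_mod_cast h2
    refine h3.trans (add_le_add ?_ le_rfl)
    have h4 : ((⌊12 * (D (k - 8 - (r : ℤ))).toReal⌋₊ : ℕ) : ℝ≥0∞)
        ≤ ENNReal.ofReal (12 * (D (k - 8 - (r : ℤ))).toReal) := by
      rw [← ENNReal.ofReal_natCast]
      exact ENNReal.ofReal_le_ofReal (Nat.floor_le (by positivity))
    refine h4.trans ?_
    rw [ENNReal.ofReal_mul (by norm_num)]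
    refine mul_le_mul' (by simp) ENNReal.ofReal_toReal_le
  have h1 : ∑ i ∈ s, f i ≤ 24 * E + 9 * 2 ^ (k - 6) := by
    calc ∑ i ∈ s, f i
        ≤ ∑ i ∈ s, ∑' r : ℕ, (if (2 : ℝ≥0∞) ^ (k - 8 - (r : ℤ)) ≤ f i
            then (2 : ℝ≥0∞) ^ (k - 7 - (r : ℤ)) else 0) :=
          Finset.sum_le_sum fun i hi => le_tsum_scales k (f i) (hf i hi)
      _ = ∑' r : ℕ, ∑ i ∈ s, (if (2 : ℝ≥0∞) ^ (k - 8 - (r : ℤ)) ≤ f i
            then (2 : ℝ≥0∞) ^ (k - 7 - (r : ℤ)) else 0) :=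
          (Summable.tsum_finsetSum fun i _ => ENNReal.summable).symm
      _ ≤ ∑' r : ℕ, (24 * ((2 : ℝ≥0∞) ^ (k - 8 - (r : ℤ)) * D (k - 8 - (r : ℤ)))
            + (2 : ℝ≥0∞) ^ (k - 7) * (((r : ℝ≥0∞) + 8) * (1 / 2) ^ r)) := by
          refine ENNReal.tsum_le_tsum fun r => ?_
          rw [← Finset.sum_filter, Finset.sum_const, nsmul_eq_mul]
          refine (mul_le_mul' (hN r) le_rfl).trans (le_of_eq ?_)
          have e1 : (2 : ℝ≥0∞) ^ (k - 7 - (r : ℤ)) = 2 * 2 ^ (k - 8 - (r : ℤ)) := by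
            rw [show k - 7 - (r : ℤ) = 1 + (k - 8 - (r : ℤ)) by ring,
              ENNReal.zpow_add (by norm_num) (by norm_num), zpow_one]
          have e2 : (2 : ℝ≥0∞) ^ (k - 7 - (r : ℤ)) = 2 ^ (k - 7) * (1 / 2) ^ r := by
            rw [sub_eq_add_neg (k - 7) (r : ℤ), ENNReal.zpow_add (by norm_num) (by norm_num),
              ENNReal.zpow_neg, zpow_natCast, one_div, ENNReal.inv_pow]
          rw [add_mul]
          congr 1
          · rw [e1]; ring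
          · rw [e2]; ring
      _ = 24 * (∑' r : ℕ, ((2 : ℝ≥0∞) ^ (k - 8 - (r : ℤ)) * D (k - 8 - (r : ℤ))))
            + 2 ^ (k - 7) * 18 := by
          rw [ENNReal.tsum_add, ENNReal.tsum_mul_left, ENNReal.tsum_mul_left, tsum_lin_geom]
      _ ≤ 24 * E + 9 * 2 ^ (k - 6) := by
          refine add_le_add (mul_le_mul' le_rfl ?_) (le_of_eq ?_)
          · exact ENNReal.tsum_comp_le_tsum_of_injective
              (f := fun r : ℕ => k - 8 - (r : ℤ)) (fun x y h => by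
                have : (k - 8 - (x : ℤ)) = k - 8 - (y : ℤ) := h
                omega) (fun j : ℤ => (2 : ℝ≥0∞) ^ j * D j)
          · rw [show k - 6 = 1 + (k - 7) by ring,
              ENNReal.zpow_add (by norm_num) (by norm_num), zpow_one]
            ring
  -- conclude with real numbers
  set Y : ℝ≥0∞ := (2 : ℝ≥0∞) ^ (k - 6) with hY
  have hZ : (2 : ℝ≥0∞) ^ k = 64 * Y := by
    rw [hY, show k = 6 + (k - 6) by ring, ENNReal.zpow_add (by norm_num) (by norm_num)]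
    norm_num
  have hYtop : Y ≠ ∞ := two_zpow_ne_top _
  have hY0 : Y ≠ 0 := two_zpow_pos _
  rw [hZ] at ha hE hsum
  have h2 : 64 * Y ≤ a + (24 * E + 9 * Y) := hsum.trans (add_le_add le_rfl h1)
  exact pigeon_num hYtop hY0 ha hE h2

end Vale.Agent.P034
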