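import Vale.Agent.P034.Cover
import Vale.Agent.P034.Num
import Vale.Agent.P034.Pigeon

namespace Vale.Agent.P034

open Finset
open scoped ENNReal

variable {X : Type} [Fintype X] [DecidableEq X]

/-- The children lemma. -/
lemma sum_lemma {q : ℝ≥0∞} {ι : Type} (s : Finset ι) (U : Finset X) (V : ι → Finset X)
    (hV : ∀ i ∈ s, ∀ j ∈ s, i ≠ j → Disjoint (V i) (V j)) (hVU : ∀ i ∈ s, V i ⊆ U)
    (f : ι → Finset X → ℝ≥0∞) (γ : ι → ℤ → ℝ≥0∞) (a : ℝ≥0∞)
    (h : ∀ i ∈ s, ∀ k, CoverAt q (V i) {H | (2 : ℝ≥0∞) ^ k ≤ f i H} (γ i k)) :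
    ∃ c : ℤ → ℝ≥0∞, (∀ k, CoverAt q U {H | (2 : ℝ≥0∞) ^ k ≤ a + ∑ i ∈ s, f i H} (c k)) ∧
      ∑' k : ℤ, (2 : ℝ≥0∞) ^ k * c k ≤
        4 * a + 513 * ∑ i ∈ s, ∑' k : ℤ, (2 : ℝ≥0∞) ^ k * γ i k := by
  classical
  set D : ℤ → ℝ≥0∞ := fun k => ∑ i ∈ s, γ i k with hD
  set E : ℝ≥0∞ := ∑' j : ℤ, (2 : ℝ≥0∞) ^ j * D j with hE
  have hE' : ∑ i ∈ s, ∑' k : ℤ, (2 : ℝ≥0∞) ^ k * γ i k = E := by
    rw [hE, ← Summable.tsum_finsetSum (fun i _ => ENNReal.summable)]
    simp only [hD, Finset.mul_sum]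
  have hU : s.biUnion V ⊆ U := Finset.biUnion_subset.2 hVU
  let c : ℤ → ℝ≥0∞ := fun k => if (2 : ℝ≥0∞) ^ k ≤ 2 * a ∨ (2 : ℝ≥0∞) ^ k ≤ 192 * E then 1 else
    D (k - 7) + ∑' r : ℕ, 3 * D (k - 8 - r) * (1 / 4) ^ (r + 8)
  refine ⟨c, fun k => ?_, ?_⟩
  · by_cases hk : (2 : ℝ≥0∞) ^ k ≤ 2 * a ∨ (2 : ℝ≥0∞) ^ k ≤ 192 * E
    · have : c k = 1 := if_pos hk
      rw [this]
      exact CoverAt.one q U _
    · have hck : c k = D (k - 7) + ∑' r : ℕ, 3 * D (k - 8 - r) * (1 / 4) ^ (r + 8) := if_neg hk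
      rw [not_or, not_le, not_le] at hk
      rw [hck]
      -- finiteness
      have hEtop : E ≠ ⊤ := by
        intro htop
        rw [htop] at hk
        have : (192 : ℝ≥0∞) * ⊤ = ⊤ := ENNReal.mul_top (by norm_num)
        rw [this] at hk
        exact not_top_lt hk.2
      have hDtop : ∀ j, D j ≠ ⊤ := by
        intro j hj
        apply hEtop
        have h1 : (2 : ℝ≥0∞) ^ j * D j ≤ E := ENNReal.le_tsum j
        rw [hj, ENNReal.mul_top (ENNReal.zpow_pos (by norm_num) (by norm_num) j).ne'] at h1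
        exact top_le_iff.1 h1
      have hsingle := many_cover s V hV (fun i => {H | (2 : ℝ≥0∞) ^ (k - 7) ≤ f i H})
        (fun i => γ i (k - 7)) (fun i hi => h i hi (k - 7)) 1
      have hmulti : ∀ r : ℕ, CoverAt q (s.biUnion V)
          {H | ⌊12 * (D (k - 8 - (r : ℤ))).toReal⌋₊ + r + 9 ≤
            (s.filter (fun i => H ∈ {H | (2 : ℝ≥0∞) ^ (k - 8 - (r : ℤ)) ≤ f i H})).card}
          (3 * D (k - 8 - r) * (1 / 4) ^ (r + 8)) := by
        intro r
        refine (many_cover s V hV (fun i => {H | (2 : ℝ≥0∞) ^ (k - 8 - (r : ℤ)) ≤ f i H})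
          (fun i => γ i (k - 8 - r)) (fun i hi => h i hi (k - 8 - r))
          (⌊12 * (D (k - 8 - (r : ℤ))).toReal⌋₊ + r + 9)).mono (Subset.refl _)
            (fun H hH => by convert hH) ?_
        have h12 : 12 * D (k - 8 - r) ≤
            ((⌊12 * (D (k - 8 - (r : ℤ))).toReal⌋₊ + r + 9 : ℕ) : ℝ≥0∞) := by
          have h1 : 12 * (D (k - 8 - (r : ℤ))).toReal ≤
              ((⌊12 * (D (k - 8 - (r : ℤ))).toReal⌋₊ + r + 9 : ℕ) : ℝ) := by
            have := (Nat.lt_floor_add_one (12 * (D (k - 8 - (r : ℤ))).toReal)).le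
            push_cast
            have hr0 : (0 : ℝ) ≤ r := Nat.cast_nonneg r
            linarith
          have h2 := ENNReal.ofReal_le_ofReal h1
          rw [ENNReal.ofReal_natCast, ENNReal.ofReal_mul (by norm_num),
            ENNReal.ofReal_toReal (hDtop _)] at h2
          simpa using h2
        refine (num_bound (D (k - 8 - r)) _ (by omega) h12).trans ?_
        refine mul_le_mul_right ?_ _
        apply pow_le_pow_right_of_le_one'
        · rw [one_div]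
          exact ENNReal.inv_le_one.2 (by norm_num)
        · omega
      have hall := hsingle.union (CoverAt.iUnion hmulti)
      refine hall.mono ?_ ?_ ?_
      · exact hU
      · intro H hH
        by_cases hs : ∀ i ∈ s, f i H < (2 : ℝ≥0∞) ^ (k - 7)
        · right
          obtain ⟨r, hr⟩ := pigeon s (fun i => f i H) a D k hk.1 hk.2 hs hH
          exact Set.mem_iUnion.2 ⟨r, hr⟩
        · left
          push Not at hs
          obtain ⟨i, hi, hfi⟩ := hs
          have hmem : i ∈ s.filter (fun i => H ∈ {H | (2 : ℝ≥0∞) ^ (k - 7) ≤ f i H}) :=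
            Finset.mem_filter.2 ⟨hi, hfi⟩
          have hpos : 1 ≤ (s.filter (fun i => H ∈ {H | (2 : ℝ≥0∞) ^ (k - 7) ≤ f i H})).card :=
            Finset.card_pos.2 ⟨i, hmem⟩
          change 1 ≤ _
          convert hpos
      · simp [hD]
  · rw [hE']
    have hbound : ∀ k : ℤ, (2 : ℝ≥0∞) ^ k * c k ≤
        (2 : ℝ≥0∞) ^ k * (if (2 : ℝ≥0∞) ^ k ≤ 2 * a then 1 else 0) +
        (2 : ℝ≥0∞) ^ k * (if (2 : ℝ≥0∞) ^ k ≤ 192 * E then 1 else 0) +
        ((2 : ℝ≥0∞) ^ k * D (k - (7 : ℕ)) +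
          (2 : ℝ≥0∞) ^ k * (∑' r : ℕ, 3 * D (k - 8 - r) * (1 / 4) ^ (r + 8))) := by
      intro k
      rw [← mul_add, ← mul_add, ← mul_add]
      gcongr
      by_cases h1 : (2 : ℝ≥0∞) ^ k ≤ 2 * a
      · have : c k = 1 := if_pos (Or.inl h1)
        rw [this, if_pos h1, add_assoc]
        exact le_self_add
      · by_cases h2 : (2 : ℝ≥0∞) ^ k ≤ 192 * E
        · have : c k = 1 := if_pos (Or.inr h2)
          rw [this, if_pos h2, if_neg h1, zero_add]
          exact le_self_add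
        · have : c k = D (k - 7) + ∑' r : ℕ, 3 * D (k - 8 - r) * (1 / 4) ^ (r + 8) :=
            if_neg (by rw [not_or]; exact ⟨h1, h2⟩)
          rw [this, if_neg h1, if_neg h2, add_zero, zero_add]
          simp
    refine (ENNReal.tsum_le_tsum hbound).trans ?_
    rw [ENNReal.tsum_add, ENNReal.tsum_add, ENNReal.tsum_add, tsum_shift D 7]
    have e1 := tsum_dyadic_le (2 * a)
    have e2 := tsum_dyadic_le (192 * E)
    have e3 := tsum_multi D
    calc _ ≤ 2 * (2 * a) + 2 * (192 * E) + (2 ^ 7 * E + E) := by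
          gcongr
      _ = 4 * a + 513 * E := by ring

end Vale.Agent.P034
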