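import Vale.Agent.P034.Conv
import Vale.Agent.P034.Sum

namespace Vale.Agent.P034

open Finset
open scoped ENNReal

variable {X : Type} [Fintype X] [DecidableEq X]

/-- Invariant: `f` is a sum of functions on disjoint ground sets with covers at all dyadic scales,
total cost at most `C / (8421408 m²)`. -/
def Good (m : ℕ) (q : ℝ≥0∞) (U : Finset X) (f : Finset X → ℝ≥0∞) (C : ℝ≥0∞) : Prop :=
  ∃ (ι : Type) (s : Finset ι) (V : ι → Finset X) (g : ι → Finset X → ℝ≥0∞)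
    (γ : ι → ℤ → ℝ≥0∞),
    (∀ i ∈ s, ∀ j ∈ s, i ≠ j → Disjoint (V i) (V j)) ∧ (∀ i ∈ s, V i ⊆ U) ∧
    (∀ H, f H = ∑ i ∈ s, g i H) ∧
    (∀ i ∈ s, ∀ k, CoverAt q (V i) {H | (2 : ℝ≥0∞) ^ k ≤ g i H} (γ i k)) ∧
    (8421408 * (m : ℝ≥0∞) ^ 2) * ∑ i ∈ s, ∑' k : ℤ, (2 : ℝ≥0∞) ^ k * γ i k ≤ C

/-- Covers of `a + f` at all scales. -/
lemma Good.covers {m : ℕ} {q : ℝ≥0∞} {U : Finset X} {f : Finset X → ℝ≥0∞} {C : ℝ≥0∞}
    (h : Good m q U f C) (a : ℝ≥0∞) :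
    ∃ c : ℤ → ℝ≥0∞, (∀ k, CoverAt q U {H | (2 : ℝ≥0∞) ^ k ≤ a + f H} (c k)) ∧
      ∃ T : ℝ≥0∞, (8421408 * (m : ℝ≥0∞) ^ 2) * T ≤ C ∧ ∑' k : ℤ, (2 : ℝ≥0∞) ^ k * c k ≤ 4 * a + 513 * T := by
  obtain ⟨ι, s, V, g, γ, h1, h2, h3, h4, h5⟩ := h
  obtain ⟨c, hc, hs⟩ := sum_lemma (q := q) s U V h1 h2 g γ a h4
  refine ⟨c, fun k => ?_, _, h5, hs⟩
  refine (hc k).mono Subset.rfl (fun H hH => ?_) le_rfl
  simp only [Set.mem_ofPred_eq] at hH ⊢
  rwa [← h3 H]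

lemma Good.mk {m : ℕ} {q : ℝ≥0∞} {U : Finset X} {f : Finset X → ℝ≥0∞} {C : ℝ≥0∞} (c : ℤ → ℝ≥0∞)
    (hc : ∀ k, CoverAt q U {H | (2 : ℝ≥0∞) ^ k ≤ f H} (c k))
    (hs : (8421408 * (m : ℝ≥0∞) ^ 2) * ∑' k : ℤ, (2 : ℝ≥0∞) ^ k * c k ≤ C) : Good m q U f C := by
  refine ⟨Unit, {()}, fun _ => U, fun _ => f, fun _ => c, ?_, ?_, ?_, ?_, ?_⟩
  · intro i _ j _ hij
    exact absurd rfl hij
  · intro i _; exact Subset.rfl
  · intro H; simp
  · intro i _ k; exact hc k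
  · simpa using hs

lemma Good.zero (m : ℕ) (q : ℝ≥0∞) (U : Finset X) (C : ℝ≥0∞) :
    Good m q U (fun _ => 0) C := by
  refine ⟨Unit, ∅, fun _ => U, fun _ => 0, fun _ => 0, ?_, ?_, ?_, ?_, ?_⟩ <;> simp

lemma Good.add {m : ℕ} {q : ℝ≥0∞} {U V : Finset X} {f g : Finset X → ℝ≥0∞} {C D : ℝ≥0∞}
    (hf : Good m q U f C) (hg : Good m q V g D) (hd : Disjoint U V) :
    Good m q (U ∪ V) (fun H => f H + g H) (C + D) := by
  classical
  obtain ⟨ι, s, A, F, γ, h1, h2, h3, h4, h5⟩ := hf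
  obtain ⟨κ, t, B, G, δ, k1, k2, k3, k4, k5⟩ := hg
  refine ⟨ι ⊕ κ, s.disjSum t, Sum.elim A B, Sum.elim F G, Sum.elim γ δ, ?_, ?_, ?_, ?_, ?_⟩
  · rintro (i | i) hi (j | j) hj hij
    · rw [inl_mem_disjSum] at hi hj
      exact h1 i hi j hj (fun h => hij (by rw [h]))
    · rw [inl_mem_disjSum] at hi
      rw [inr_mem_disjSum] at hj
      exact disjoint_of_subset_left (h2 i hi) (disjoint_of_subset_right (k2 j hj) hd)
    · rw [inr_mem_disjSum] at hi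
      rw [inl_mem_disjSum] at hj
      exact (disjoint_of_subset_left (h2 j hj) (disjoint_of_subset_right (k2 i hi) hd)).symm
    · rw [inr_mem_disjSum] at hi hj
      exact k1 i hi j hj (fun h => hij (by rw [h]))
  · rintro (i | i) hi
    · rw [inl_mem_disjSum] at hi
      exact (h2 i hi).trans subset_union_left
    · rw [inr_mem_disjSum] at hi
      exact (k2 i hi).trans subset_union_right
  · intro H
    change f H + g H = _
    rw [sum_disjSum, h3 H, k3 H]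
    rfl
  · rintro (i | i) hi k
    · rw [inl_mem_disjSum] at hi
      exact h4 i hi k
    · rw [inr_mem_disjSum] at hi
      exact k4 i hi k
  · rw [sum_disjSum, mul_add]
    exact add_le_add h5 k5

/-- covers of `a + ∑_j f_j`, ground sets arbitrary -/
lemma overlap_lemma {m : ℕ} (hm : 1 ≤ m) {q : ℝ≥0∞} {U : Finset X} (f : Fin m → Finset X → ℝ≥0∞)
    (γ : Fin m → ℤ → ℝ≥0∞) (a : ℝ≥0∞)
    (h : ∀ j k, CoverAt q U {H | (2 : ℝ≥0∞) ^ k ≤ f j H} (γ j k)) :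
    ∃ c : ℤ → ℝ≥0∞, (∀ k, CoverAt q U {H | (2 : ℝ≥0∞) ^ k ≤ a + ∑ j, f j H} (c k)) ∧
      ∑' k : ℤ, (2 : ℝ≥0∞) ^ k * c k ≤
        4 * a + 4 * m * ∑ j, ∑' k : ℤ, (2 : ℝ≥0∞) ^ k * γ j k := by
  classical
  have h20 : (2 : ℝ≥0∞) ≠ 0 := by norm_num
  have h2t : (2 : ℝ≥0∞) ≠ ⊤ := by norm_num
  obtain ⟨r, hr1, hr2⟩ : ∃ r : ℕ, m ≤ 2 ^ r ∧ 2 ^ r ≤ 2 * m := by
    refine ⟨Nat.log 2 m + 1, (Nat.lt_pow_succ_log_self (by norm_num) m).le, ?_⟩
    rw [pow_succ, mul_comm]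
    exact Nat.mul_le_mul_left 2 (Nat.pow_log_le_self 2 (by omega))
  refine ⟨fun k => (if (2 : ℝ≥0∞) ^ k ≤ 2 * a then 1 else 0) +
    ∑' j : Fin m, γ j (k - ((r + 1 : ℕ) : ℤ)), fun k => ?_, ?_⟩
  · have c1 : CoverAt q U {H : Finset X | (2 : ℝ≥0∞) ^ k ≤ 2 * a}
        (if (2 : ℝ≥0∞) ^ k ≤ 2 * a then 1 else 0) := by
      split_ifs with h1
      · exact CoverAt.one q U _
      · refine ⟨∅, by simp, ?_, by simp⟩
        intro H hH
        exact absurd hH h1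
    have c2 := CoverAt.iUnion (fun j => h j (k - ((r + 1 : ℕ) : ℤ)))
    refine (c1.union c2).mono Subset.rfl ?_ le_rfl
    intro H hH
    simp only [Set.mem_ofPred_eq] at hH
    by_contra hcon
    simp only [Set.mem_union, Set.mem_iUnion, Set.mem_ofPred_eq, not_or, not_exists, not_le]
      at hcon
    obtain ⟨n1, n2⟩ := hcon
    have e1 : (2 : ℝ≥0∞) ^ k = 2 * 2 ^ (k - 1) := by
      have h := ENNReal.zpow_add h20 h2t 1 (k - 1)
      rw [zpow_one, show (1 : ℤ) + (k - 1) = k by ring] at h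
      exact h
    have ha : a < 2 ^ (k - 1) := by
      rw [e1] at n1
      exact lt_of_mul_lt_mul_left' n1
    have hs : ∑ j, f j H ≤ 2 ^ (k - 1) := by
      calc ∑ j, f j H ≤ ∑ _j : Fin m, (2 : ℝ≥0∞) ^ (k - ((r + 1 : ℕ) : ℤ)) :=
            sum_le_sum (fun j _ => (n2 j).le)
        _ = m * (2 : ℝ≥0∞) ^ (k - ((r + 1 : ℕ) : ℤ)) := by simp
        _ ≤ (2 : ℝ≥0∞) ^ r * (2 : ℝ≥0∞) ^ (k - ((r + 1 : ℕ) : ℤ)) := by
            gcongr
            exact_mod_cast hr1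
        _ = 2 ^ (k - 1) := by
            rw [← zpow_natCast, ← ENNReal.zpow_add h20 h2t]
            congr 1
            push_cast
            ring
    have hlt : a + ∑ j, f j H < 2 ^ k := by
      calc a + ∑ j, f j H ≤ a + 2 ^ (k - 1) := by gcongr
        _ < 2 ^ (k - 1) + 2 ^ (k - 1) := by
            exact ENNReal.add_lt_add_right (ENNReal.zpow_ne_top h20 h2t _) ha
        _ = 2 ^ k := by rw [e1]; ring
    exact absurd hH (not_le.2 hlt)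
  · simp_rw [mul_add]
    rw [ENNReal.tsum_add]
    have t1 := tsum_dyadic_le (2 * a)
    have t2 : ∑' k : ℤ, (2 : ℝ≥0∞) ^ k * ∑' j : Fin m, γ j (k - ((r + 1 : ℕ) : ℤ))
        = 2 ^ (r + 1) * ∑ j, ∑' k : ℤ, (2 : ℝ≥0∞) ^ k * γ j k := by
      simp_rw [← ENNReal.tsum_mul_left]
      rw [ENNReal.tsum_comm, tsum_fintype, mul_sum]
      exact sum_congr rfl (fun j _ => tsum_shift (γ j) (r + 1))
    rw [t2]
    refine add_le_add (t1.trans (le_of_eq (by ring))) ?_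
    gcongr
    have : (2 : ℝ≥0∞) ^ r ≤ 2 * m := by exact_mod_cast hr2
    calc (2 : ℝ≥0∞) ^ (r + 1) = 2 * 2 ^ r := by ring
      _ ≤ 2 * (2 * m) := by gcongr
      _ = 4 * m := by ring

/-- covers of `a + ∑_j f_j` from the invariant -/
lemma Good.covers_many {m : ℕ} (hm : 1 ≤ m) {q : ℝ≥0∞} {U : Finset X}
    {f : Fin m → Finset X → ℝ≥0∞} {C : Fin m → ℝ≥0∞} (h : ∀ j, Good m q U (f j) (C j)) (a : ℝ≥0∞) :
    ∃ c : ℤ → ℝ≥0∞, (∀ k, CoverAt q U {H | (2 : ℝ≥0∞) ^ k ≤ a + ∑ j, f j H} (c k)) ∧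
      ∃ T : ℝ≥0∞, (8421408 * (m : ℝ≥0∞) ^ 2) * T ≤ ∑ j, C j ∧
        ∑' k : ℤ, (2 : ℝ≥0∞) ^ k * c k ≤ 4 * a + 2052 * m * T := by
  choose γ hγ T hT hs using fun j => (h j).covers 0
  obtain ⟨c, hc, hcs⟩ := overlap_lemma hm f γ a (fun j k => by simpa using hγ j k)
  refine ⟨c, hc, ∑ j, T j, ?_, hcs.trans ?_⟩
  · rw [mul_sum]
    exact sum_le_sum (fun j _ => hT j)
  · gcongr 4 * a + ?_
    calc 4 * (m : ℝ≥0∞) * ∑ j, ∑' k : ℤ, (2 : ℝ≥0∞) ^ k * γ j k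
        ≤ 4 * (m : ℝ≥0∞) * ∑ j, 513 * T j := by
          gcongr with j
          simpa using hs j
      _ = 2052 * m * ∑ j, T j := by
          rw [← mul_sum]; ring

/-- multiplication by a monomial -/
lemma Good.root {m : ℕ} (hm : 1 ≤ m) {p q : ℝ≥0∞} (hq : (33685632 * (m : ℝ≥0∞) ^ 2) * q ≤ p)
    {R U : Finset X} {f : Fin m → Finset X → ℝ≥0∞} {C : Fin m → ℝ≥0∞}
    (hf : ∀ j, Good m q U (f j) (C j)) (a : ℝ≥0∞) (hR : R.Nonempty) (hd : Disjoint R U) :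
    Good m q (R ∪ U) (fun H => if R ⊆ H then a + ∑ j, f j H else 0)
      (p ^ R.card * (a + ∑ j, C j)) := by
  obtain ⟨c, hc, T, hT, hs⟩ := Good.covers_many hm hf a
  have hm1 : (1 : ℝ≥0∞) ≤ m := by exact_mod_cast hm
  refine Good.mk (fun k => q ^ R.card * c k) (fun k => ?_) ?_
  · refine ((CoverAt.single q R).prod (hc k) hd).mono Subset.rfl ?_ le_rfl
    intro H hH
    simp only [Set.mem_ofPred_eq] at hH
    by_cases h : R ⊆ H
    · rw [if_pos h] at hH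
      exact ⟨h, hH⟩
    · rw [if_neg h] at hH
      exfalso
      have h0 : (2 : ℝ≥0∞) ^ k ≠ 0 := (ENNReal.zpow_pos (by norm_num) (by norm_num) k).ne'
      exact h0 (nonpos_iff_eq_zero.mp hH)
  · have e : ∑' k : ℤ, (2 : ℝ≥0∞) ^ k * (q ^ R.card * c k) =
        q ^ R.card * ∑' k : ℤ, (2 : ℝ≥0∞) ^ k * c k := by
      rw [← ENNReal.tsum_mul_left]
      refine tsum_congr fun k => by ring
    rw [e]
    have hm' : 1 ≤ R.card := card_pos.mpr hR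
    have hbig : (2052 * (m : ℝ≥0∞)) ≤ 33685632 * (m : ℝ≥0∞) ^ 2 := by
      calc (2052 * (m : ℝ≥0∞)) = 2052 * ((m : ℝ≥0∞) * 1) := by ring
        _ ≤ 33685632 * ((m : ℝ≥0∞) * m) := by
            gcongr
            norm_num
        _ = _ := by ring
    have h1big : (1 : ℝ≥0∞) ≤ 33685632 * (m : ℝ≥0∞) ^ 2 := by
      calc (1 : ℝ≥0∞) = 1 * 1 ^ 2 := by norm_num
        _ ≤ 33685632 * (m : ℝ≥0∞) ^ 2 := by
            gcongr
            norm_num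
    calc (8421408 * (m : ℝ≥0∞) ^ 2) * (q ^ R.card * ∑' k : ℤ, (2 : ℝ≥0∞) ^ k * c k)
        ≤ (8421408 * (m : ℝ≥0∞) ^ 2) * (q ^ R.card * (4 * a + 2052 * m * T)) := by gcongr
      _ = q ^ R.card * ((33685632 * (m : ℝ≥0∞) ^ 2) * a +
            (2052 * m) * ((8421408 * (m : ℝ≥0∞) ^ 2) * T)) := by ring
      _ ≤ q ^ R.card * ((33685632 * (m : ℝ≥0∞) ^ 2) * a +
            (33685632 * (m : ℝ≥0∞) ^ 2) * ∑ j, C j) := by gcongr
      _ = ((33685632 * (m : ℝ≥0∞) ^ 2) * q ^ R.card) * (a + ∑ j, C j) := by ring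
      _ ≤ p ^ R.card * (a + ∑ j, C j) := by
          gcongr
          calc (33685632 * (m : ℝ≥0∞) ^ 2) * q ^ R.card
              ≤ (33685632 * (m : ℝ≥0∞) ^ 2) ^ R.card * q ^ R.card := by
                gcongr
                calc (33685632 * (m : ℝ≥0∞) ^ 2) = (33685632 * (m : ℝ≥0∞) ^ 2) ^ 1 :=
                      (pow_one _).symm
                  _ ≤ (33685632 * (m : ℝ≥0∞) ^ 2) ^ R.card := pow_le_pow_right₀ h1big hm'
            _ = ((33685632 * (m : ℝ≥0∞) ^ 2) * q) ^ R.card := (mul_pow _ _ _).symm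
            _ ≤ p ^ R.card := by gcongr

/-- the product lemma -/
lemma prod_lemma {q : ℝ≥0∞} {U V : Finset X} {f g : Finset X → ℝ≥0∞} (c d : ℤ → ℝ≥0∞)
    (hc : ∀ k, CoverAt q U {H | (2 : ℝ≥0∞) ^ k ≤ f H} (c k))
    (hd : ∀ k, CoverAt q V {H | (2 : ℝ≥0∞) ^ k ≤ g H} (d k)) (hUV : Disjoint U V) :
    ∃ e : ℤ → ℝ≥0∞, (∀ k, CoverAt q (U ∪ V) {H | (2 : ℝ≥0∞) ^ k ≤ f H * g H} (e k)) ∧
      ∑' k : ℤ, (2 : ℝ≥0∞) ^ k * e k =
        2 * (∑' k : ℤ, (2 : ℝ≥0∞) ^ k * c k) * ∑' k : ℤ, (2 : ℝ≥0∞) ^ k * d k := by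
  refine ⟨fun k => ∑' i : ℤ, c i * d (k - 1 - i), fun k => ?_, ?_⟩
  · refine (CoverAt.iUnion (fun i => (hc i).prod (hd (k - 1 - i)) hUV)).mono Subset.rfl ?_ le_rfl
    intro H hH
    simp only [Set.mem_ofPred_eq] at hH
    have h20 : (2 : ℝ≥0∞) ≠ 0 := by norm_num
    have h2t : (2 : ℝ≥0∞) ≠ ⊤ := by norm_num
    have hk0 : (2 : ℝ≥0∞) ^ k ≠ 0 := (ENNReal.zpow_pos h20 h2t k).ne'
    have hf0 : f H ≠ 0 := by
      intro h; rw [h, zero_mul] at hH; exact hk0 (nonpos_iff_eq_zero.mp hH)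
    have hg0 : g H ≠ 0 := by
      intro h; rw [h, mul_zero] at hH; exact hk0 (nonpos_iff_eq_zero.mp hH)
    simp only [Set.mem_iUnion, Set.mem_inter_iff, Set.mem_ofPred_eq]
    rcases eq_or_ne (f H) ⊤ with hft | hft
    · rcases eq_or_ne (g H) ⊤ with hgt | hgt
      · exact ⟨0, by rw [hft]; exact le_top, by rw [hgt]; exact le_top⟩
      · obtain ⟨j, hj1, hj2⟩ := ENNReal.exists_mem_Ico_zpow (x := g H) (y := 2) hg0 hgt
          (by norm_num) (by norm_num)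
        refine ⟨k - 1 - j, by rw [hft]; exact le_top, ?_⟩
        rw [show k - 1 - (k - 1 - j) = j by ring]
        exact hj1
    · obtain ⟨i, hi1, hi2⟩ := ENNReal.exists_mem_Ico_zpow (x := f H) (y := 2) hf0 hft
        (by norm_num) (by norm_num)
      refine ⟨i, hi1, ?_⟩
      have h1 : (2 : ℝ≥0∞) ^ (i + 1) * (2 : ℝ≥0∞) ^ (k - 1 - i) ≤ 2 ^ (i + 1) * g H := by
        rw [← ENNReal.zpow_add h20 h2t, show i + 1 + (k - 1 - i) = k by ring]
        exact hH.trans (by gcongr)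
      exact (ENNReal.mul_le_mul_iff_right (ENNReal.zpow_pos h20 h2t _).ne'
        (ENNReal.zpow_ne_top h20 h2t _)).1 h1
  · have h20 : (2 : ℝ≥0∞) ≠ 0 := by norm_num
    have h2t : (2 : ℝ≥0∞) ≠ ⊤ := by norm_num
    simp_rw [← ENNReal.tsum_mul_left]
    rw [ENNReal.tsum_comm]
    have key : ∀ i : ℤ, ∑' k : ℤ, (2 : ℝ≥0∞) ^ k * (c i * d (k - 1 - i))
        = (2 * ((2 : ℝ≥0∞) ^ i * c i)) * ∑' k : ℤ, (2 : ℝ≥0∞) ^ k * d k := by
      intro i
      rw [← (Equiv.addRight (1 + i)).tsum_eq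
        (fun k : ℤ => (2 : ℝ≥0∞) ^ k * (c i * d (k - 1 - i))), ← ENNReal.tsum_mul_left]
      refine tsum_congr (fun k => ?_)
      simp only [Equiv.coe_addRight]
      rw [show k + (1 + i) - 1 - i = k by ring, ENNReal.zpow_add h20 h2t,
        ENNReal.zpow_add h20 h2t, zpow_one]
      ring
    simp_rw [key]
    rw [ENNReal.tsum_mul_right]
    simp_rw [← ENNReal.tsum_mul_left]

lemma Good.mul {m : ℕ} (hm : 1 ≤ m) {q : ℝ≥0∞} {U V : Finset X} {f g : Fin m → Finset X → ℝ≥0∞}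
    {C D : Fin m → ℝ≥0∞} (hf : ∀ j, Good m q U (f j) (C j)) (hg : ∀ j, Good m q V (g j) (D j))
    (hUV : Disjoint U V) :
    Good m q (U ∪ V) (fun H => (∑ j, f j H) * ∑ j, g j H) ((∑ j, C j) * ∑ j, D j) := by
  obtain ⟨c, hc, T, hT, hcs⟩ := Good.covers_many hm hf 0
  obtain ⟨d, hd, S, hS, hds⟩ := Good.covers_many hm hg 0
  obtain ⟨e, he, hes⟩ := prod_lemma (f := fun H => 0 + ∑ j, f j H) (g := fun H => 0 + ∑ j, g j H)
    c d hc hd hUV
  refine Good.mk e (fun k => ?_) ?_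
  · simpa using he k
  · rw [hes]
    rw [mul_zero, zero_add] at hcs hds
    calc (8421408 * (m : ℝ≥0∞) ^ 2) *
          (2 * (∑' k : ℤ, (2 : ℝ≥0∞) ^ k * c k) * ∑' k : ℤ, (2 : ℝ≥0∞) ^ k * d k)
        ≤ (8421408 * (m : ℝ≥0∞) ^ 2) * (2 * (2052 * m * T) * (2052 * m * S)) := by gcongr
      _ = ((8421408 * (m : ℝ≥0∞) ^ 2) * T) * ((8421408 * (m : ℝ≥0∞) ^ 2) * S) := by ring
      _ ≤ (∑ j, C j) * ∑ j, D j := by gcongr

lemma Good.congr {m : ℕ} {q : ℝ≥0∞} {U : Finset X} {f f' : Finset X → ℝ≥0∞} {C C' : ℝ≥0∞}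
    (h : Good m q U f C) (hf : ∀ H, f' H = f H) (hC : C ≤ C') : Good m q U f' C' := by
  obtain ⟨ι, s, A, F, γ, h1, h2, h3, h4, h5⟩ := h
  exact ⟨ι, s, A, F, γ, h1, h2, fun H => (hf H).trans (h3 H), h4, h5.trans hC⟩

lemma Good.mono {m : ℕ} {q : ℝ≥0∞} {U V : Finset X} {f : Finset X → ℝ≥0∞} {C : ℝ≥0∞}
    (h : Good m q U f C) (hUV : U ⊆ V) : Good m q V f C := by
  obtain ⟨ι, s, A, F, γ, h1, h2, h3, h4, h5⟩ := h
  exact ⟨ι, s, A, F, γ, h1, fun i hi => (h2 i hi).trans hUV, h3, h4, h5⟩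

/-- Every `m`-fold read-once weight satisfies the invariant. -/
lemma RO.good {m : ℕ} (hm : 1 ≤ m) {p q : ℝ≥0∞} (hq : (33685632 * (m : ℝ≥0∞) ^ 2) * q ≤ p)
    {U : Finset X} {w : Finset X → ℝ≥0∞} (h : RO m U w) : Good m q U (W w) (cst w p) := by
  induction h with
  | zero U =>
    refine (Good.zero m q U _).congr ?_ le_rfl
    intro H
    simp [W]
  | root R U a w hR hd hw ih =>
    have hs := fadd_supp (single_supp (X := X) ∅ a) (fsum_supp (fun j => (hw j).supp))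
    rw [empty_union] at hs
    have hdis : ∀ A B : Finset X, single R 1 A ≠ 0 →
        (fun S => single ∅ a S + ∑ j, w j S) B ≠ 0 → Disjoint A B := by
      intro A B hA hB
      exact disjoint_of_subset_left (single_supp R 1 A hA)
        (disjoint_of_subset_right (hs B hB) hd)
    refine (Good.root hm hq ih a hR hd).congr ?_ ?_
    · intro H
      rw [W_conv _ _ hdis, W_single, W_fadd, W_single, W_fsum]
      split_ifs with h1 h2
      · rw [one_mul]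
      · exact absurd (empty_subset H) h2
      · rw [zero_mul]
      · rw [zero_mul]
    · rw [cst_conv _ _ hdis, cst_single, cst_fadd, cst_single, one_mul, card_empty, pow_zero,
        mul_one, cst_fsum]
  | sum U V v w hd hv hw ihv ihw =>
    refine (ihv.add ihw hd).congr (fun H => W_fadd v w H) ?_
    rw [cst_fadd]
  | prod U V v w hd hv hw ihv ihw =>
    have hdis : ∀ A B : Finset X, (fun S => ∑ j, v j S) A ≠ 0 → (fun S => ∑ j, w j S) B ≠ 0 →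
        Disjoint A B := fun A B hA hB =>
      disjoint_of_subset_left (fsum_supp (fun j => (hv j).supp) A hA)
        (disjoint_of_subset_right (fsum_supp (fun j => (hw j).supp) B hB) hd)
    refine (Good.mul hm ihv ihw hd).congr (fun H => ?_) ?_
    · rw [W_conv _ _ hdis H, W_fsum, W_fsum]
    · rw [cst_conv _ _ hdis, cst_fsum, cst_fsum]

/-- The main theorem for sums of `m` weights of the class `RO m`. -/
theorem ro_main {m : ℕ} (hm : 1 ≤ m) {p q : ℝ≥0∞} (hq : (33685632 * (m : ℝ≥0∞) ^ 2) * q ≤ p)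
    (a : ℝ≥0∞) (U : Fin m → Finset X) (w : Fin m → Finset X → ℝ≥0∞) (hw : ∀ j, RO m (U j) (w j))
    (hc : cst (fun S => single ∅ a S + ∑ j, w j S) p ≤ 1 / 2) :
    CoverAt q univ {H | 1 ≤ W (fun S => single ∅ a S + ∑ j, w j S) H} (1 / 2) := by
  have hg : ∀ j, Good m q univ (W (w j)) (cst (w j) p) := fun j =>
    (RO.good hm hq (hw j)).mono (subset_univ _)
  obtain ⟨c, hcov, T, hT, hs⟩ := Good.covers_many hm hg 0
  rw [cst_fadd, cst_single, card_empty, pow_zero, mul_one, cst_fsum] at hc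
  have ha : a ≤ 1 / 2 := le_self_add.trans hc
  have hC : ∑ j, cst (w j) p ≤ 1 / 2 := le_add_self.trans hc
  refine (hcov (-1)).mono Subset.rfl (fun H hH => ?_) ?_
  · simp only [Set.mem_ofPred_eq] at hH ⊢
    rw [W_fadd, W_single, if_pos (empty_subset H), W_fsum] at hH
    rw [zero_add]
    have h12 : (2 : ℝ≥0∞) ^ (-1 : ℤ) = 1 / 2 := by
      rw [zpow_neg_one, one_div]
    rw [h12]
    have : (1 : ℝ≥0∞) ≤ 1 / 2 + ∑ j, W (w j) H := hH.trans (by gcongr)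
    have h1' : (1 / 2 : ℝ≥0∞) + 1 / 2 = 1 := ENNReal.add_halves 1
    have this' : (1 / 2 : ℝ≥0∞) + 1 / 2 ≤ 1 / 2 + ∑ j, W (w j) H := h1'.le.trans this
    have hne : (1 / 2 : ℝ≥0∞) ≠ ⊤ := by
      rw [one_div]
      exact ENNReal.inv_ne_top.mpr (by norm_num)
    exact (ENNReal.add_le_add_iff_left hne).mp this'
  · have hm1 : (1 : ℝ≥0∞) ≤ m := by exact_mod_cast hm
    have hle : (2 : ℝ≥0∞) ^ (-1 : ℤ) * c (-1) ≤ ∑' k : ℤ, (2 : ℝ≥0∞) ^ k * c k :=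
      ENNReal.le_tsum (-1)
    have h2 : c (-1) = 2 * ((2 : ℝ≥0∞) ^ (-1 : ℤ) * c (-1)) := by
      rw [← mul_assoc, zpow_neg_one, ENNReal.mul_inv_cancel (by norm_num) (by norm_num), one_mul]
    rw [mul_zero, zero_add] at hs
    calc c (-1) = 2 * ((2 : ℝ≥0∞) ^ (-1 : ℤ) * c (-1)) := h2
      _ ≤ 2 * (2052 * m * T) := by
          exact mul_le_mul_right (hle.trans hs) 2
      _ = 4104 * (m * 1) * T := by ring
      _ ≤ 8421408 * (m * m) * T := by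
          gcongr
          norm_num
      _ = (8421408 * (m : ℝ≥0∞) ^ 2) * T := by ring
      _ ≤ ∑ j, cst (w j) p := hT
      _ ≤ 1 / 2 := hC

end Vale.Agent.P034
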