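import Mathlib

/-!
# Read-once weights (real-valued), for the hand-in P034.ReadOnce
-/

namespace Vale.Agent.P034

open Finset

variable {X : Type} [DecidableEq X]

/-- Weight `a` on the single set `R`. -/
def atSet (R : Finset X) (a : ℝ) (S : Finset X) : ℝ := if S = R then a else 0

/-- Product of two weights: the sum of `v A * w B` over all splittings of `S` into disjoint parts
`A`, `B`. For weights on disjoint ground sets this is the product of generating polynomials:
`(v * w)(A ∪ B) = v A * w B`. -/
def mulW (v w : Finset X → ℝ) (S : Finset X) : ℝ := ∑ A ∈ S.powerset, v A * w (S \ A)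

/-- `ReadOnce m U w`: the weight `w` belongs to the smallest class of weights on subsets of `U`
that contains `0` and is closed under
* (sum) sums of two members on disjoint ground sets;
* (prod) products, over disjoint ground sets, of two sums of `m` members each;
* (root) `(w_j) ↦ x^R (a + ∑_j w_j)`: adding the same nonempty set `R`, disjoint from the ground
  set `U`, to all sets in a sum of `m` members `w_j` on `U` and a constant `a ≥ 0` (weight on `∅`).
For `m = 1` these are the read-once formulas. -/
inductive ReadOnce (m : ℕ) : Finset X → (Finset X → ℝ) → Prop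
  | zero (U : Finset X) : ReadOnce m U (fun _ => 0)
  | root (R U : Finset X) (a : ℝ) (w : Fin m → Finset X → ℝ) :
      R.Nonempty → Disjoint R U → 0 ≤ a → (∀ j, ReadOnce m U (w j)) →
      ReadOnce m (R ∪ U) (mulW (atSet R 1) (fun S => atSet ∅ a S + ∑ j, w j S))
  | sum (U V : Finset X) (v w : Finset X → ℝ) :
      Disjoint U V → ReadOnce m U v → ReadOnce m V w → ReadOnce m (U ∪ V) (fun S => v S + w S)
  | prod (U V : Finset X) (v w : Fin m → Finset X → ℝ) :
      Disjoint U V → (∀ j, ReadOnce m U (v j)) → (∀ j, ReadOnce m V (w j)) →
      ReadOnce m (U ∪ V) (mulW (fun S => ∑ j, v j S) (fun S => ∑ j, w j S))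

end Vale.Agent.P034
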