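import Vale.Agent.P034.RODefs
import Vale.Agent.P034.Good

namespace Vale.Agent.P034

open Finset
open scoped ENNReal

variable {X : Type} [Fintype X] [DecidableEq X]

lemma atSet_nonneg (R : Finset X) {a : ℝ} (ha : 0 ≤ a) (S : Finset X) : 0 ≤ atSet R a S := by
  unfold atSet; split_ifs; exacts [ha, le_rfl]

lemma mulW_nonneg {v w : Finset X → ℝ} (hv : ∀ S, 0 ≤ v S) (hw : ∀ S, 0 ≤ w S) (S : Finset X) :
    0 ≤ mulW v w S := sum_nonneg (fun A _ => mul_nonneg (hv A) (hw _))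

lemma ofReal_atSet (R : Finset X) (a : ℝ) :
    (fun S => ENNReal.ofReal (atSet R a S)) = single R (ENNReal.ofReal a) := by
  funext S
  unfold atSet single
  split_ifs <;> simp

lemma ofReal_mulW {v w : Finset X → ℝ} (hv : ∀ S, 0 ≤ v S) (hw : ∀ S, 0 ≤ w S) :
    (fun S => ENNReal.ofReal (mulW v w S)) =
      conv (fun S => ENNReal.ofReal (v S)) (fun S => ENNReal.ofReal (w S)) := by
  funext S
  unfold mulW conv
  rw [ENNReal.ofReal_sum_of_nonneg (fun A _ => mul_nonneg (hv A) (hw _))]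
  exact sum_congr rfl (fun A _ => ENNReal.ofReal_mul (hv A))

lemma ReadOnce.spec {m : ℕ} {U : Finset X} {w : Finset X → ℝ} (h : ReadOnce m U w) :
    (∀ S, 0 ≤ w S) ∧ RO m U (fun S => ENNReal.ofReal (w S)) := by
  induction h with
  | zero U =>
    refine ⟨fun _ => le_rfl, ?_⟩
    simpa using RO.zero U
  | root R U a w hR hd ha hw ih =>
    have h0 : ∀ S, 0 ≤ atSet ∅ a S + ∑ j, w j S := fun S =>
      add_nonneg (atSet_nonneg _ ha S) (sum_nonneg (fun j _ => (ih j).1 S))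
    refine ⟨mulW_nonneg (atSet_nonneg R zero_le_one) h0, ?_⟩
    rw [ofReal_mulW (atSet_nonneg R zero_le_one) h0, ofReal_atSet, ENNReal.ofReal_one]
    have e : (fun S => ENNReal.ofReal (atSet ∅ a S + ∑ j, w j S)) =
        (fun S => single ∅ (ENNReal.ofReal a) S + ∑ j, ENNReal.ofReal (w j S)) := by
      funext S
      rw [ENNReal.ofReal_add (atSet_nonneg _ ha S) (sum_nonneg (fun j _ => (ih j).1 S)),
        ENNReal.ofReal_sum_of_nonneg (fun j _ => (ih j).1 S), ← ofReal_atSet]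
    rw [e]
    exact RO.root R U _ (fun j S => ENNReal.ofReal (w j S)) hR hd (fun j => (ih j).2)
  | sum U V v w hd hv hw ihv ihw =>
    refine ⟨fun S => add_nonneg (ihv.1 S) (ihw.1 S), ?_⟩
    have e : (fun S => ENNReal.ofReal (v S + w S)) =
        (fun S => ENNReal.ofReal (v S) + ENNReal.ofReal (w S)) := by
      funext S
      exact ENNReal.ofReal_add (ihv.1 S) (ihw.1 S)
    rw [e]
    exact RO.sum U V _ _ hd ihv.2 ihw.2
  | prod U V v w hd hv hw ihv ihw =>
    have h1 : ∀ S, 0 ≤ ∑ j, v j S := fun S => sum_nonneg (fun j _ => (ihv j).1 S)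
    have h2 : ∀ S, 0 ≤ ∑ j, w j S := fun S => sum_nonneg (fun j _ => (ihw j).1 S)
    refine ⟨mulW_nonneg h1 h2, ?_⟩
    rw [ofReal_mulW h1 h2]
    have e1 : (fun S => ENNReal.ofReal (∑ j, v j S)) = (fun S => ∑ j, ENNReal.ofReal (v j S)) := by
      funext S
      exact ENNReal.ofReal_sum_of_nonneg (fun j _ => (ihv j).1 S)
    have e2 : (fun S => ENNReal.ofReal (∑ j, w j S)) = (fun S => ∑ j, ENNReal.ofReal (w j S)) := by
      funext S
      exact ENNReal.ofReal_sum_of_nonneg (fun j _ => (ihw j).1 S)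
    rw [e1, e2]
    exact RO.prod U V (fun j S => ENNReal.ofReal (v j S)) (fun j S => ENNReal.ofReal (w j S)) hd
      (fun j => (ihv j).2) (fun j => (ihw j).2)

/-- real-valued version -/
theorem real_ro {m : ℕ} (hm : 1 ≤ m) (a : ℝ) (ha : 0 ≤ a) (U : Fin m → Finset X)
    (w : Fin m → Finset X → ℝ) (hw : ∀ j, ReadOnce m (U j) (w j))
    (g : Finset X → ℝ) (hg : ∀ S, g S = atSet ∅ a S + ∑ j, w j S)
    (p : ℝ) (hp : 0 ≤ p) (hc : ∑ S : Finset X, g S * p ^ S.card ≤ 1 / 2) :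
    ∃ G : Finset (Finset X), (∀ H : Finset X, 1 ≤ ∑ S ∈ H.powerset, g S → ∃ S ∈ G, S ⊆ H) ∧
      ∑ S ∈ G, (p / (33685632 * (m : ℝ) ^ 2)) ^ S.card ≤ 1 / 2 := by
  have hhalf : ENNReal.ofReal (1 / 2) = 1 / 2 := by
    rw [ENNReal.ofReal_div_of_pos (by norm_num)]
    simp
  have hmr : (1 : ℝ) ≤ m := by exact_mod_cast hm
  have hg0 : ∀ S, 0 ≤ g S := fun S => by
    rw [hg S]
    exact add_nonneg (atSet_nonneg _ ha S) (sum_nonneg (fun j _ => (hw j).spec.1 S))
  have heq : (fun S => single ∅ (ENNReal.ofReal a) S + ∑ j, ENNReal.ofReal (w j S)) =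
      (fun S => ENNReal.ofReal (g S)) := by
    funext S
    rw [hg S, ENNReal.ofReal_add (atSet_nonneg _ ha S)
      (sum_nonneg (fun j _ => (hw j).spec.1 S)),
      ENNReal.ofReal_sum_of_nonneg (fun j _ => (hw j).spec.1 S), ← ofReal_atSet]
  have h := ro_main (X := X) hm (p := ENNReal.ofReal p)
    (q := ENNReal.ofReal (p / (33685632 * (m : ℝ) ^ 2))) ?_ (ENNReal.ofReal a) U
    (fun j S => ENNReal.ofReal (w j S)) (fun j => (hw j).spec.2) ?_
  · obtain ⟨G, -, hG, hcost⟩ := h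
    refine ⟨G, fun H hH => hG H ?_, ?_⟩
    · change 1 ≤ W (fun S => single ∅ (ENNReal.ofReal a) S + ∑ j, ENNReal.ofReal (w j S)) H
      rw [heq]
      unfold W
      rw [← ENNReal.ofReal_sum_of_nonneg (fun S _ => hg0 S)]
      rw [← ENNReal.ofReal_one]
      exact ENNReal.ofReal_le_ofReal hH
    · have e : ∑ S ∈ G, ENNReal.ofReal (p / (33685632 * (m : ℝ) ^ 2)) ^ S.card =
          ENNReal.ofReal (∑ S ∈ G, (p / (33685632 * (m : ℝ) ^ 2)) ^ S.card) := by
        rw [ENNReal.ofReal_sum_of_nonneg (fun S _ => by positivity)]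
        refine sum_congr rfl fun S _ => ?_
        rw [ENNReal.ofReal_pow (by positivity)]
      rw [e, ← hhalf] at hcost
      exact (ENNReal.ofReal_le_ofReal_iff (by norm_num)).mp hcost
  · have e : (33685632 * (m : ℝ≥0∞) ^ 2) = ENNReal.ofReal (33685632 * (m : ℝ) ^ 2) := by
      rw [ENNReal.ofReal_mul (by norm_num), ENNReal.ofReal_pow (by positivity),
        ENNReal.ofReal_natCast]
      simp
    rw [e, ← ENNReal.ofReal_mul (by positivity)]
    apply ENNReal.ofReal_le_ofReal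
    rw [mul_div_cancel₀]
    positivity
  · rw [heq]
    unfold cst
    have e : ∑ S : Finset X, ENNReal.ofReal (g S) * ENNReal.ofReal p ^ S.card =
        ENNReal.ofReal (∑ S : Finset X, g S * p ^ S.card) := by
      rw [ENNReal.ofReal_sum_of_nonneg (fun S _ => mul_nonneg (hg0 S) (by positivity))]
      refine sum_congr rfl fun S _ => ?_
      rw [ENNReal.ofReal_mul (hg0 S), ENNReal.ofReal_pow hp]
    rw [e, ← hhalf]
    exact ENNReal.ofReal_le_ofReal hc

end Vale.Agent.P034
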