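import Vale.Agent.P034.StrongDefs

namespace Vale.Agent.P034

open Finset

variable {X : Type} [Fintype X] [DecidableEq X]

lemma pair_sum {A B : Finset X} (h : Disjoint A B) (f : Finset X → ℝ) :
    ∑ S ∈ (A ∪ B).powerset, f S = ∑ S ∈ A.powerset, ∑ T ∈ B.powerset, f (S ∪ T) := by
  rw [← sum_product']
  refine sum_bij' (fun S _ => (S ∩ A, S ∩ B)) (fun x _ => x.1 ∪ x.2) ?_ ?_ ?_ ?_ ?_
  · intro S _
    simp only [mem_product, mem_powerset]
    exact ⟨inter_subset_right, inter_subset_right⟩
  · rintro ⟨S, T⟩ hST
    simp only [mem_product, mem_powerset] at hST ⊢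
    exact union_subset_union hST.1 hST.2
  · intro S hS
    rw [mem_powerset] at hS
    simp only
    rw [← inter_union_distrib_left, inter_eq_left.2 hS]
  · rintro ⟨S, T⟩ hST
    simp only [mem_product, mem_powerset] at hST
    have e1 : (S ∪ T) ∩ A = S := by
      rw [union_inter_distrib_right, inter_eq_left.2 hST.1,
        disjoint_iff_inter_eq_empty.1 (disjoint_of_subset_left hST.2 h.symm), union_empty]
    have e2 : (S ∪ T) ∩ B = T := by
      rw [union_inter_distrib_right, inter_eq_left.2 hST.2,
        disjoint_iff_inter_eq_empty.1 (disjoint_of_subset_left hST.1 h), empty_union]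
    simp only [e1, e2]
  · intro S hS
    rw [mem_powerset] at hS
    simp only
    rw [← inter_union_distrib_left, inter_eq_left.2 hS]

lemma Strong.and {K : ℝ} (hK : 1 ≤ K) {U V : Finset X} {F G : Set (Finset X)} (h : Disjoint U V)
    (hF : Strong K U F) (hG : Strong K V G) : Strong K (U ∪ V) (F ∩ G) := by
  classical
  obtain ⟨dF, sF⟩ := hF
  obtain ⟨dG, sG⟩ := hG
  have hU : ∀ H : Finset X, (H ∩ (U ∪ V)) ∩ U = H ∩ U := by
    intro H
    rw [inter_assoc, inter_eq_right.2 (subset_union_left : U ⊆ U ∪ V)]
  have hV : ∀ H : Finset X, (H ∩ (U ∪ V)) ∩ V = H ∩ V := by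
    intro H
    rw [inter_assoc, inter_eq_right.2 (subset_union_right : V ⊆ U ∪ V)]
  refine ⟨?_, ?_⟩
  · intro H
    simp only [Set.mem_inter_iff]
    rw [dF H, dG H, dF (H ∩ (U ∪ V)), dG (H ∩ (U ∪ V)), hU, hV]
  · intro p hp hp1
    obtain ⟨A, hAU, hAc, hA⟩ := sF p hp hp1
    obtain ⟨B, hBV, hBc, hB⟩ := sG p hp hp1
    refine ⟨(A ×ˢ B).image (fun x => x.1 ∪ x.2), ?_, ?_, ?_⟩
    · intro S hS
      obtain ⟨⟨S1, S2⟩, h12, rfl⟩ := mem_image.1 hS
      rw [mem_product] at h12
      exact union_subset_union (hAU _ h12.1) (hBV _ h12.2)
    · rintro H ⟨h1, h2⟩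
      obtain ⟨S1, hS1, hs1⟩ := hAc H h1
      obtain ⟨S2, hS2, hs2⟩ := hBc H h2
      exact ⟨S1 ∪ S2, mem_image.2 ⟨(S1, S2), mem_product.2 ⟨hS1, hS2⟩, rfl⟩,
        union_subset hs1 hs2⟩
    · rintro g ⟨hg0, hg⟩
      have hpK : 0 ≤ p / K := by positivity
      -- cost of the product cover
      have hcost : ∑ S ∈ (A ×ˢ B).image (fun x => x.1 ∪ x.2), (p / K) ^ S.card ≤
          (∑ S ∈ A, (p / K) ^ S.card) * ∑ S ∈ B, (p / K) ^ S.card := by
        calc ∑ S ∈ (A ×ˢ B).image (fun x => x.1 ∪ x.2), (p / K) ^ S.card
            ≤ ∑ x ∈ A ×ˢ B, (p / K) ^ (x.1 ∪ x.2).card :=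
              sum_image_le_of_nonneg (fun _ _ => by positivity)
          _ = ∑ x ∈ A ×ˢ B, (p / K) ^ x.1.card * (p / K) ^ x.2.card := by
              refine sum_congr rfl (fun x hx => ?_)
              rw [mem_product] at hx
              rw [card_union_of_disjoint (disjoint_of_subset_left (hAU _ hx.1)
                (disjoint_of_subset_right (hBV _ hx.2) h)), pow_add]
          _ = _ := by
              rw [sum_mul_sum]
              exact sum_product' A B (fun S T => (p / K) ^ S.card * (p / K) ^ T.card)
      refine hcost.trans ?_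
      set t1 := ∑ S ∈ A, (p / K) ^ S.card with ht1
      set t2 := ∑ S ∈ B, (p / K) ^ S.card with ht2
      have t10 : 0 ≤ t1 := sum_nonneg (fun _ _ => by positivity)
      have t20 : 0 ≤ t2 := sum_nonneg (fun _ _ => by positivity)
      -- the second marginal
      let g2 : Finset X → ℝ := fun T => if T ⊆ V then ∑ S ∈ U.powerset, p ^ S.card * g (S ∪ T)
        else 0
      have hg20 : ∀ T, 0 ≤ g2 T := by
        intro T
        simp only [g2]
        split_ifs
        · exact sum_nonneg (fun S _ => mul_nonneg (by positivity) (hg0 _))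
        · exact le_rfl
      have key : ∀ H2 ∈ G, t1 ≤ ∑ T ∈ H2.powerset, g2 T := by
        intro H2 hH2
        have hfc : FC F (fun S => if S ⊆ U then ∑ T ∈ (H2 ∩ V).powerset, g (S ∪ T) else 0) := by
          refine ⟨fun S => ?_, fun H1 hH1 => ?_⟩
          · beta_reduce
            split_ifs
            · exact sum_nonneg (fun T _ => hg0 _)
            · exact le_rfl
          · have hdis : Disjoint (H1 ∩ U) (H2 ∩ V) :=
              disjoint_of_subset_left inter_subset_right
                (disjoint_of_subset_right inter_subset_right h)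
            have hmem : (H1 ∩ U) ∪ (H2 ∩ V) ∈ F ∩ G := by
              constructor
              · rw [dF, union_inter_distrib_right, inter_assoc, inter_self, inter_assoc,
                  disjoint_iff_inter_eq_empty.1 h.symm, inter_empty, union_empty]
                exact (dF H1).1 hH1
              · rw [dG, union_inter_distrib_right, inter_assoc,
                  disjoint_iff_inter_eq_empty.1 h, inter_empty, empty_union, inter_assoc,
                  inter_self]
                exact (dG H2).1 hH2
            have h1 := hg _ hmem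
            rw [pair_sum hdis] at h1
            refine h1.trans ?_
            calc ∑ S ∈ (H1 ∩ U).powerset, ∑ T ∈ (H2 ∩ V).powerset, g (S ∪ T)
                = ∑ S ∈ (H1 ∩ U).powerset,
                    (if S ⊆ U then ∑ T ∈ (H2 ∩ V).powerset, g (S ∪ T) else 0) := by
                  refine sum_congr rfl (fun S hS => ?_)
                  rw [mem_powerset] at hS
                  rw [if_pos (hS.trans inter_subset_right)]
              _ ≤ _ := by
                  refine sum_le_sum_of_subset_of_nonneg
                    (powerset_mono.2 inter_subset_left) (fun S _ _ => ?_)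
                  split_ifs
                  · exact sum_nonneg (fun T _ => hg0 _)
                  · exact le_rfl
        refine (hA _ hfc).trans ?_
        calc ∑ S : Finset X, (if S ⊆ U then ∑ T ∈ (H2 ∩ V).powerset, g (S ∪ T) else 0) * p ^ S.card
            = ∑ S ∈ U.powerset, ∑ T ∈ (H2 ∩ V).powerset, p ^ S.card * g (S ∪ T) := by
              rw [show U.powerset = univ.filter (fun S => S ⊆ U) by ext S; simp, sum_filter]
              refine sum_congr rfl (fun S _ => ?_)
              split_ifs
              · rw [mul_comm, mul_sum]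
              · rw [zero_mul]
          _ = ∑ T ∈ (H2 ∩ V).powerset, ∑ S ∈ U.powerset, p ^ S.card * g (S ∪ T) := sum_comm
          _ = ∑ T ∈ (H2 ∩ V).powerset, g2 T := by
              refine sum_congr rfl (fun T hT => ?_)
              rw [mem_powerset] at hT
              simp only [g2]
              rw [if_pos (hT.trans inter_subset_right)]
          _ ≤ ∑ T ∈ H2.powerset, g2 T :=
              sum_le_sum_of_subset_of_nonneg (powerset_mono.2 inter_subset_left)
                (fun T _ _ => hg20 T)
      have hc2 : ∑ T : Finset X, g2 T * p ^ T.card ≤ ∑ S : Finset X, g S * p ^ S.card := by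
        calc ∑ T : Finset X, g2 T * p ^ T.card
            = ∑ T ∈ V.powerset, ∑ S ∈ U.powerset, g (S ∪ T) * p ^ (S ∪ T).card := by
              rw [show V.powerset = univ.filter (fun T => T ⊆ V) by ext T; simp, sum_filter]
              refine sum_congr rfl (fun T _ => ?_)
              simp only [g2]
              split_ifs with hTV
              · rw [sum_mul]
                refine sum_congr rfl (fun S hS => ?_)
                rw [mem_powerset] at hS
                rw [card_union_of_disjoint (disjoint_of_subset_left hS
                  (disjoint_of_subset_right hTV h)), pow_add]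
                ring
              · rw [zero_mul]
          _ = ∑ S ∈ (U ∪ V).powerset, g S * p ^ S.card := by
              rw [pair_sum h, sum_comm]
          _ ≤ _ := sum_le_sum_of_subset_of_nonneg (subset_univ _)
              (fun S _ _ => mul_nonneg (hg0 S) (by positivity))
      rcases eq_or_lt_of_le t10 with h0 | h0
      · rw [← h0, zero_mul]
        exact sum_nonneg (fun S _ => mul_nonneg (hg0 S) (by positivity))
      · have hfc2 : FC G (fun T => g2 T / t1) := by
          refine ⟨fun T => div_nonneg (hg20 T) t10, fun H2 hH2 => ?_⟩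
          rw [← sum_div, one_le_div h0]
          exact key H2 hH2
        have h2 := hB _ hfc2
        have h3 : ∑ S : Finset X, g2 S / t1 * p ^ S.card
            = (∑ T : Finset X, g2 T * p ^ T.card) / t1 := by
          rw [sum_div]
          exact sum_congr rfl (fun T _ => by ring)
        rw [h3, le_div_iff₀ h0] at h2
        calc t1 * t2 = t2 * t1 := mul_comm _ _
          _ ≤ _ := h2
          _ ≤ _ := hc2

end Vale.Agent.P034
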