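import Mathlib

namespace Vale.Agent.P034

open Finset

variable {X : Type} [Fintype X] [DecidableEq X]

/-- nonnegative fractional cover -/
def FC (F : Set (Finset X)) (g : Finset X → ℝ) : Prop :=
  (∀ S, 0 ≤ g S) ∧ ∀ H ∈ F, 1 ≤ ∑ S ∈ H.powerset, g S

/-- `F` depends on `U` only, and at every `p` some integral cover has cost at `p/K` at most the
cost at `p` of every fractional cover. -/
def Strong (K : ℝ) (U : Finset X) (F : Set (Finset X)) : Prop :=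
  (∀ H, H ∈ F ↔ H ∩ U ∈ F) ∧ ∀ p : ℝ, 0 ≤ p → p ≤ 1 →
    ∃ G : Finset (Finset X), (∀ S ∈ G, S ⊆ U) ∧ (∀ H ∈ F, ∃ S ∈ G, S ⊆ H) ∧
      ∀ g, FC F g → ∑ S ∈ G, (p / K) ^ S.card ≤ ∑ S : Finset X, g S * p ^ S.card

end Vale.Agent.P034
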