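import Vale.Agent.P034.StrongDefs

namespace Vale.Agent.P034

open Finset

variable {X : Type} [Fintype X] [DecidableEq X]

/-- the part of a fractional cover on the nonempty subsets of `U` -/
lemma part_bound {K p : ℝ} (hp : 0 ≤ p) {U : Finset X} {F : Set (Finset X)} {A : Finset (Finset X)}
    (dF : ∀ H, H ∈ F ↔ H ∩ U ∈ F)
    (hA : ∀ g, FC F g → ∑ S ∈ A, (p / K) ^ S.card ≤ ∑ S : Finset X, g S * p ^ S.card)
    (g : Finset X → ℝ) (hg0 : ∀ S, 0 ≤ g S) (hg : ∀ H ∈ F, 1 ≤ ∑ S ∈ H.powerset, g S)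
    (ha : g ∅ < 1) :
    (1 - g ∅) * ∑ S ∈ A, (p / K) ^ S.card ≤
      ∑ S : Finset X, if S ⊆ U ∧ S ≠ ∅ then g S * p ^ S.card else 0 := by
  classical
  have h1a : 0 < 1 - g ∅ := by linarith
  have hfc : FC F (fun S => (if S ⊆ U ∧ S ≠ ∅ then g S else 0) / (1 - g ∅)) := by
    refine ⟨fun S => div_nonneg ?_ h1a.le, fun H hH => ?_⟩
    · split_ifs
      · exact hg0 S
      · exact le_rfl
    · rw [← sum_div, one_le_div h1a]
      have h1 := hg _ ((dF H).1 hH)
      have e : ∑ S ∈ (H ∩ U).powerset, g S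
          = g ∅ + ∑ S ∈ (H ∩ U).powerset.erase ∅, g S :=
        (add_sum_erase _ _ (empty_mem_powerset _)).symm
      rw [e] at h1
      have h2 : ∑ S ∈ (H ∩ U).powerset.erase ∅, g S
          = ∑ S ∈ (H ∩ U).powerset.erase ∅, (if S ⊆ U ∧ S ≠ ∅ then g S else 0) := by
        refine sum_congr rfl (fun S hS => ?_)
        rw [mem_erase, mem_powerset] at hS
        rw [if_pos ⟨hS.2.trans inter_subset_right, hS.1⟩]
      have h3 : ∑ S ∈ (H ∩ U).powerset.erase ∅, (if S ⊆ U ∧ S ≠ ∅ then g S else 0)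
          ≤ ∑ S ∈ H.powerset, (if S ⊆ U ∧ S ≠ ∅ then g S else 0) := by
        refine sum_le_sum_of_subset_of_nonneg ?_ (fun S _ _ => ?_)
        · exact (erase_subset _ _).trans (powerset_mono.2 inter_subset_left)
        · split_ifs
          · exact hg0 S
          · exact le_rfl
      linarith
  have h := hA _ hfc
  have e : ∑ S : Finset X, (if S ⊆ U ∧ S ≠ ∅ then g S else 0) / (1 - g ∅) * p ^ S.card
      = (∑ S : Finset X, if S ⊆ U ∧ S ≠ ∅ then g S * p ^ S.card else 0) / (1 - g ∅) := by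
    rw [sum_div]
    refine sum_congr rfl (fun S _ => ?_)
    split_ifs
    · ring
    · ring
  rw [e, le_div_iff₀ h1a] at h
  linarith

lemma Strong.or {K : ℝ} (hK : 1 ≤ K) {U V : Finset X} {F G : Set (Finset X)} (h : Disjoint U V)
    (hF : Strong K U F) (hG : Strong K V G) : Strong K (U ∪ V) (F ∪ G) := by
  classical
  obtain ⟨dF, sF⟩ := hF
  obtain ⟨dG, sG⟩ := hG
  have hU : ∀ H : Finset X, (H ∩ (U ∪ V)) ∩ U = H ∩ U := by
    intro H
    rw [inter_assoc, inter_eq_right.2 (subset_union_left : U ⊆ U ∪ V)]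
  have hV : ∀ H : Finset X, (H ∩ (U ∪ V)) ∩ V = H ∩ V := by
    intro H
    rw [inter_assoc, inter_eq_right.2 (subset_union_right : V ⊆ U ∪ V)]
  refine ⟨?_, ?_⟩
  · intro H
    simp only [Set.mem_union]
    rw [dF H, dG H, dF (H ∩ (U ∪ V)), dG (H ∩ (U ∪ V)), hU, hV]
  · intro p hp hp1
    obtain ⟨A, hAU, hAc, hA⟩ := sF p hp hp1
    obtain ⟨B, hBV, hBc, hB⟩ := sG p hp hp1
    have hpK : 0 ≤ p / K := by positivity
    have t10 : 0 ≤ ∑ S ∈ A, (p / K) ^ S.card := sum_nonneg (fun _ _ => by positivity)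
    have t20 : 0 ≤ ∑ S ∈ B, (p / K) ^ S.card := sum_nonneg (fun _ _ => by positivity)
    -- lower bound for every fractional cover
    have low : ∀ g, FC (F ∪ G) g →
        min 1 (∑ S ∈ A, (p / K) ^ S.card + ∑ S ∈ B, (p / K) ^ S.card) ≤
          ∑ S : Finset X, g S * p ^ S.card := by
      rintro g ⟨hg0, hg⟩
      have hpos : ∀ S : Finset X, 0 ≤ g S * p ^ S.card := fun S =>
        mul_nonneg (hg0 S) (pow_nonneg hp _)
      by_cases ha : g ∅ < 1
      · have h1 := part_bound (K := K) hp dF hA g hg0 (fun H hH => hg H (Or.inl hH)) ha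
        have h2 := part_bound (K := K) hp dG hB g hg0 (fun H hH => hg H (Or.inr hH)) ha
        have h3 : g ∅ + (∑ S : Finset X, if S ⊆ U ∧ S ≠ ∅ then g S * p ^ S.card else 0)
            + (∑ S : Finset X, if S ⊆ V ∧ S ≠ ∅ then g S * p ^ S.card else 0)
            ≤ ∑ S : Finset X, g S * p ^ S.card := by
          have e0 : g ∅ = ∑ S : Finset X, if S = ∅ then g S * p ^ S.card else 0 := by
            rw [sum_ite_eq']
            simp
          rw [e0, ← sum_add_distrib, ← sum_add_distrib]
          refine sum_le_sum (fun S _ => ?_)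
          by_cases hS : S = ∅
          · simp [hS]
          · by_cases hSU : S ⊆ U
            · have hSV : ¬ S ⊆ V := by
                intro hSV
                obtain ⟨x, hx⟩ := nonempty_iff_ne_empty.2 hS
                exact disjoint_left.1 h (hSU hx) (hSV hx)
              simp [hS, hSU, hSV]
            · by_cases hSV : S ⊆ V
              · simp [hS, hSU, hSV]
              · simp only [hS, hSU, hSV, if_false, false_and, add_zero]
                exact hpos S
        have h4 : min 1 (∑ S ∈ A, (p / K) ^ S.card + ∑ S ∈ B, (p / K) ^ S.card) ≤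
            g ∅ + (1 - g ∅) * (∑ S ∈ A, (p / K) ^ S.card + ∑ S ∈ B, (p / K) ^ S.card) := by
          have hm1 := min_le_left 1 (∑ S ∈ A, (p / K) ^ S.card + ∑ S ∈ B, (p / K) ^ S.card)
          have hm2 := min_le_right 1 (∑ S ∈ A, (p / K) ^ S.card + ∑ S ∈ B, (p / K) ^ S.card)
          have h5 := mul_le_mul_of_nonneg_left hm1 (hg0 ∅)
          have h6 := mul_le_mul_of_nonneg_left hm2 (by linarith : (0 : ℝ) ≤ 1 - g ∅)
          linarith
        linarith
      · have h1 : g ∅ * p ^ (∅ : Finset X).card ≤ ∑ S : Finset X, g S * p ^ S.card :=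
          single_le_sum (f := fun S => g S * p ^ S.card) (fun S _ => hpos S) (mem_univ ∅)
        rw [card_empty, pow_zero, mul_one] at h1
        exact (min_le_left _ _).trans ((not_lt.1 ha).trans h1)
    by_cases hc : 1 ≤ ∑ S ∈ A, (p / K) ^ S.card + ∑ S ∈ B, (p / K) ^ S.card
    · refine ⟨{∅}, ?_, ?_, ?_⟩
      · intro S hS
        rw [mem_singleton] at hS
        rw [hS]
        exact empty_subset _
      · intro H _
        exact ⟨∅, mem_singleton_self _, empty_subset _⟩
      · intro g hg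
        refine le_trans ?_ (low g hg)
        rw [min_eq_left hc]
        simp
    · refine ⟨A ∪ B, ?_, ?_, ?_⟩
      · intro S hS
        rcases mem_union.1 hS with h1 | h1
        · exact (hAU S h1).trans subset_union_left
        · exact (hBV S h1).trans subset_union_right
      · intro H hH
        rcases hH with hH | hH
        · obtain ⟨S, hS, hSH⟩ := hAc H hH
          exact ⟨S, mem_union_left _ hS, hSH⟩
        · obtain ⟨S, hS, hSH⟩ := hBc H hH
          exact ⟨S, mem_union_right _ hS, hSH⟩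
      · intro g hg
        refine le_trans ?_ (low g hg)
        rw [min_eq_right (not_le.1 hc).le]
        have := sum_union_inter (s₁ := A) (s₂ := B) (f := fun S => (p / K) ^ S.card)
        have h2 : 0 ≤ ∑ S ∈ A ∩ B, (p / K) ^ S.card := sum_nonneg (fun _ _ => by positivity)
        linarith

end Vale.Agent.P034
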