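import Vale.Agent.P034.StrongDefs
import Vale.Agent.P034.Fam

namespace Vale.Agent.P034

open Finset
open scoped ENNReal

variable {X : Type} [Fintype X] [DecidableEq X]

lemma tree_half {p q : ℝ≥0∞} (hq : 4104 * q ≤ p) (w : Finset X → ℝ≥0∞) (hw : Tree w)
    (h0 : w ∅ = 0) (U : Finset X) (hU : ∀ S, w S ≠ 0 → S ⊆ U) :
    CoverAt q U {H | 1 ≤ W w H} (cst w p / 2) := by
  have h8 : 8 * (p / 8) = p := ENNReal.mul_div_cancel (by norm_num) (by norm_num)
  have hq' : 513 * q ≤ p / 8 := by
    rw [ENNReal.le_div_iff_mul_le (Or.inl (by norm_num)) (Or.inl (by norm_num))]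
    calc 513 * q * 8 = 4104 * q := by ring
      _ ≤ p := hq
  obtain ⟨c, hc, hs⟩ := core hq' U.card U w le_rfl hw hU
  refine (hc 0).mono Subset.rfl (fun H hH => ?_) ?_
  · simpa using hH
  · have h1 : (2 : ℝ≥0∞) ^ (0 : ℤ) * c 0 ≤ ∑' k : ℤ, (2 : ℝ≥0∞) ^ k * c k := ENNReal.le_tsum 0
    rw [zpow_zero, one_mul] at h1
    have h2 : 8 * cst w (p / 8) ≤ cst w p := by
      unfold cst
      rw [mul_sum]
      apply sum_le_sum
      intro S _
      rcases S.eq_empty_or_nonempty with rfl | hne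
      · simp [h0]
      · calc 8 * (w S * (p / 8) ^ S.card) = w S * (8 * (p / 8) ^ S.card) := by ring
          _ ≤ w S * p ^ S.card := by
            gcongr
            exact const_mul_pow_le (by norm_num) h8.le (card_pos.mpr hne)
    rw [ENNReal.le_div_iff_mul_le (Or.inl (by norm_num)) (Or.inl (by norm_num))]
    calc c 0 * 2 ≤ (4 * cst w (p / 8)) * 2 := by
          gcongr
          exact h1.trans hs
      _ = 8 * cst w (p / 8) := by ring
      _ ≤ cst w p := h2

end Vale.Agent.P034
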