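import Vale.Agent.P034.StrongDefs
import Vale.Agent.P034.Fam
import Vale.Agent.P034.TreeHalf

namespace Vale.Agent.P034

open Finset
open scoped ENNReal

variable {X : Type} [Fintype X] [DecidableEq X]

/-- real-valued version of `tree_half` -/
lemma real_half (g : Finset X → ℝ) (hg : ∀ S, 0 ≤ g S)
    (hT : ∀ A B C : Finset X, g A ≠ 0 → g B ≠ 0 → g C ≠ 0 → A ∩ B ⊆ C ∨ A ∩ C ⊆ B)
    (g0 : g ∅ = 0) (U : Finset X) (hU : ∀ S, g S ≠ 0 → S ⊆ U)
    (p : ℝ) (hp : 0 ≤ p) :
    ∃ G : Finset (Finset X), (∀ S ∈ G, S ⊆ U) ∧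
      (∀ H : Finset X, 1 ≤ ∑ S ∈ H.powerset, g S → ∃ S ∈ G, S ⊆ H) ∧
      ∑ S ∈ G, (p / 4104) ^ S.card ≤ (∑ S : Finset X, g S * p ^ S.card) / 2 := by
  have hc0 : 0 ≤ ∑ S : Finset X, g S * p ^ S.card :=
    sum_nonneg fun S _ => mul_nonneg (hg S) (pow_nonneg hp _)
  have h := tree_half (X := X) (p := ENNReal.ofReal p) (q := ENNReal.ofReal (p / 4104)) ?_
    (fun S => ENNReal.ofReal (g S)) ?_ ?_ U ?_
  · obtain ⟨G, hGU, hG, hcost⟩ := h
    refine ⟨G, hGU, fun H hH => hG H ?_, ?_⟩
    · change 1 ≤ W _ H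
      unfold W
      rw [← ENNReal.ofReal_sum_of_nonneg (fun S _ => hg S)]
      rw [← ENNReal.ofReal_one]
      exact ENNReal.ofReal_le_ofReal hH
    · have e : ∑ S ∈ G, ENNReal.ofReal (p / 4104) ^ S.card =
          ENNReal.ofReal (∑ S ∈ G, (p / 4104) ^ S.card) := by
        rw [ENNReal.ofReal_sum_of_nonneg (fun S _ => by positivity)]
        refine sum_congr rfl fun S _ => ?_
        rw [ENNReal.ofReal_pow (by positivity)]
      have e2 : cst (fun S => ENNReal.ofReal (g S)) (ENNReal.ofReal p) / 2 =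
          ENNReal.ofReal ((∑ S : Finset X, g S * p ^ S.card) / 2) := by
        unfold cst
        rw [ENNReal.ofReal_div_of_pos (by norm_num),
          ENNReal.ofReal_sum_of_nonneg (fun S _ => mul_nonneg (hg S) (by positivity))]
        congr 1
        · refine sum_congr rfl fun S _ => ?_
          rw [ENNReal.ofReal_mul (hg S), ENNReal.ofReal_pow hp]
        · simp
      rw [e, e2] at hcost
      exact (ENNReal.ofReal_le_ofReal_iff (by linarith)).mp hcost
  · have : (4104 : ℝ≥0∞) = ENNReal.ofReal 4104 := by simp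
    rw [this, ← ENNReal.ofReal_mul (by norm_num)]
    apply ENNReal.ofReal_le_ofReal
    linarith
  · intro A B C hA hB hC
    apply hT A B C
    · intro h0; apply hA; simp [h0]
    · intro h0; apply hB; simp [h0]
    · intro h0; apply hC; simp [h0]
  · simp [g0]
  · intro S hS
    apply hU S
    intro h0; apply hS; simp [h0]

/-- One tree-like family, no weight on the empty set. -/
lemma fam_half {T : Set (Finset X)} (hT : ∀ A ∈ T, ∀ B ∈ T, ∀ C ∈ T, A ∩ B ⊆ C ∨ A ∩ C ⊆ B)
    (U : Finset X) (hU : ∀ A ∈ T, A ⊆ U)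
    (g : Finset X → ℝ) (hg : ∀ S, 0 ≤ g S) (g0 : g ∅ = 0)
    (hgT : ∀ A ∈ T, 1 ≤ ∑ S ∈ A.powerset, g S)
    (p : ℝ) (hp : 0 ≤ p) (hp1 : p ≤ 1) :
    ∃ G : Finset (Finset X), (∀ S ∈ G, S ⊆ U) ∧ (∀ A ∈ T, ∃ S ∈ G, S ⊆ A) ∧
      ∑ S ∈ G, (p / 4104) ^ S.card ≤ (∑ S : Finset X, g S * p ^ S.card) / 2 := by
  classical
  have key := real_half
    (fun C => ∑ S ∈ univ.filter (fun S => (∃ A ∈ T, S ⊆ A) ∧ cl T S = C), g S) ?_ ?_ ?_ U ?_ p hp
  · obtain ⟨G, hGU, hG, hGc⟩ := key
    refine ⟨G, hGU, fun A hA => hG A ?_, ?_⟩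
    · refine (hgT A hA).trans ?_
      have e : ∑ C ∈ A.powerset, ∑ S ∈ univ.filter (fun S => (∃ A ∈ T, S ⊆ A) ∧ cl T S = C), g S
          = ∑ S ∈ univ.filter (fun S => (∃ A ∈ T, S ⊆ A) ∧ cl T S ⊆ A), g S := by
        rw [sum_sigma']
        refine sum_bij' (fun x _ => x.2) (fun S _ => ⟨cl T S, S⟩) ?_ ?_ ?_ ?_ ?_
        · rintro ⟨C, S⟩ h
          simp only [mem_sigma, mem_powerset, mem_filter, mem_univ, true_and] at h ⊢
          exact ⟨h.2.1, by rw [h.2.2]; exact h.1⟩
        · intro S h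
          simp only [mem_filter, mem_univ, true_and] at h
          simp only [mem_sigma, mem_powerset, mem_filter, mem_univ, true_and, and_true]
          exact ⟨h.2, h.1⟩
        · rintro ⟨C, S⟩ h
          simp only [mem_sigma, mem_powerset, mem_filter, mem_univ, true_and] at h
          simp only [h.2.2]
        · intro S _
          rfl
        · rintro ⟨C, S⟩ _
          rfl
      rw [e]
      refine sum_le_sum_of_subset_of_nonneg ?_ (fun S _ _ => hg S)
      intro S hS
      rw [mem_powerset] at hS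
      simp only [mem_filter, mem_univ, true_and]
      exact ⟨⟨A, hA, hS⟩, cl_subset hA hS⟩
    · refine hGc.trans ?_
      apply div_le_div_of_nonneg_right _ (by norm_num)
      have e : ∑ C : Finset X, (∑ S ∈ univ.filter (fun S => (∃ A ∈ T, S ⊆ A) ∧ cl T S = C), g S)
          * p ^ C.card
          = ∑ S ∈ univ.filter (fun S => ∃ A ∈ T, S ⊆ A), g S * p ^ (cl T S).card := by
        simp_rw [sum_mul]
        rw [sum_sigma']
        refine sum_bij' (fun x _ => x.2) (fun S _ => ⟨cl T S, S⟩) ?_ ?_ ?_ ?_ ?_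
        · rintro ⟨C, S⟩ h
          simp only [mem_sigma, mem_univ, mem_filter, true_and] at h ⊢
          exact h.1
        · intro S h
          simp only [mem_filter, mem_univ, true_and] at h
          simp only [mem_sigma, mem_filter, mem_univ, true_and, and_true]
          exact h
        · rintro ⟨C, S⟩ h
          simp only [mem_sigma, mem_univ, mem_filter, true_and] at h
          simp only [h.2]
        · intro S _
          rfl
        · rintro ⟨C, S⟩ h
          simp only [mem_sigma, mem_univ, mem_filter, true_and] at h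
          simp only [h.2]
      rw [e]
      calc ∑ S ∈ univ.filter (fun S => ∃ A ∈ T, S ⊆ A), g S * p ^ (cl T S).card
          ≤ ∑ S ∈ univ.filter (fun S => ∃ A ∈ T, S ⊆ A), g S * p ^ S.card := by
            refine sum_le_sum (fun S _ => ?_)
            exact mul_le_mul_of_nonneg_left
              (pow_le_pow_of_le_one hp hp1 (card_le_card (subset_cl T S))) (hg S)
        _ ≤ ∑ S : Finset X, g S * p ^ S.card :=
            sum_le_sum_of_subset_of_nonneg (filter_subset _ _)
              (fun S _ _ => mul_nonneg (hg S) (pow_nonneg hp _))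
  · intro C
    exact sum_nonneg (fun S _ => hg S)
  · intro A B C hA hB hC
    obtain ⟨S1, hS1, _⟩ := exists_ne_zero_of_sum_ne_zero hA
    obtain ⟨S2, hS2, _⟩ := exists_ne_zero_of_sum_ne_zero hB
    obtain ⟨S3, hS3, _⟩ := exists_ne_zero_of_sum_ne_zero hC
    simp only [mem_filter, mem_univ, true_and] at hS1 hS2 hS3
    obtain ⟨⟨A1, hA1, hSA1⟩, e1⟩ := hS1
    obtain ⟨_, e2⟩ := hS2
    obtain ⟨_, e3⟩ := hS3
    rw [← e1, ← e2, ← e3]
    exact cl_tree hT hA1 hSA1
  · apply sum_eq_zero
    intro S hS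
    simp only [mem_filter, mem_univ, true_and] at hS
    have : S = ∅ := by
      apply subset_empty.mp
      rw [← hS.2]
      exact subset_cl T S
    rw [this, g0]
  · intro C hC
    obtain ⟨S1, hS1, _⟩ := exists_ne_zero_of_sum_ne_zero hC
    simp only [mem_filter, mem_univ, true_and] at hS1
    obtain ⟨⟨A1, hA1, hSA1⟩, e1⟩ := hS1
    rw [← e1]
    exact (cl_subset hA1 hSA1).trans (hU A1 hA1)

/-- Families generated by a tree-like family. For a fractional cover `g` with `a = g ∅ < 1` take the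
compressed weight of `g/(1-a)` off `∅` (as in `fam_one`), with `tree_half`: cost `≤ c'/(2(1-a))`,
`c' = cost g - a`; this is `≤ a + c'` if `a ≤ 1/2`, and `≤ 1/2 ≤ a` if `a ≥ 1/2`, `c' ≤ 1 - a`
(if `a + c' ≥ 1` use `{∅}`). Optimal cover: minimise over the finite set of all covers. -/
lemma strong_tree {U : Finset X} {T : Set (Finset X)}
    (hT : ∀ A ∈ T, ∀ B ∈ T, ∀ C ∈ T, A ∩ B ⊆ C ∨ A ∩ C ⊆ B) (hU : ∀ A ∈ T, A ⊆ U) :
    Strong 4104 U {H | ∃ A ∈ T, A ⊆ H} := by
  classical
  constructor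
  · intro H
    constructor
    · rintro ⟨A, hA, hAH⟩
      exact ⟨A, hA, subset_inter hAH (hU A hA)⟩
    · rintro ⟨A, hA, hAH⟩
      exact ⟨A, hA, hAH.trans inter_subset_left⟩
  intro p hp hp1
  have step : ∀ g, FC {H | ∃ A ∈ T, A ⊆ H} g →
      ∃ G : Finset (Finset X), (∀ S ∈ G, S ⊆ U) ∧ (∀ H, (∃ A ∈ T, A ⊆ H) → ∃ S ∈ G, S ⊆ H) ∧
        ∑ S ∈ G, (p / 4104) ^ S.card ≤ ∑ S : Finset X, g S * p ^ S.card := by
    rintro g ⟨hg, hcov⟩
    have hsplit : ∑ S : Finset X, g S * p ^ S.card =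
        g ∅ + ∑ S ∈ univ.erase ∅, g S * p ^ S.card := by
      rw [← add_sum_erase univ _ (mem_univ (∅ : Finset X))]
      simp
    set c' : ℝ := ∑ S ∈ univ.erase (∅ : Finset X), g S * p ^ S.card with hc'
    have hc'0 : 0 ≤ c' := sum_nonneg fun S _ => mul_nonneg (hg S) (pow_nonneg hp _)
    rcases le_or_gt 1 (g ∅ + c') with h1 | h1
    · refine ⟨{∅}, by simp, fun H _ => ⟨∅, by simp, empty_subset _⟩, ?_⟩
      rw [hsplit]
      simpa using h1
    · have ha1 : 0 < 1 - g ∅ := by linarith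
      have hga := hg ∅
      obtain ⟨G, hGU, hG, hGc⟩ := fam_half hT U hU
        (fun S => if S = ∅ then 0 else g S / (1 - g ∅)) (by
          intro S
          show (0 : ℝ) ≤ if S = ∅ then 0 else g S / (1 - g ∅)
          split_ifs
          · exact le_rfl
          · exact div_nonneg (hg S) ha1.le) (by simp) (by
          intro A hA
          have h2 := hcov A ⟨A, hA, Subset.rfl⟩
          have e : ∑ S ∈ A.powerset, (if S = ∅ then (0 : ℝ) else g S / (1 - g ∅)) =
              (∑ S ∈ A.powerset, g S - g ∅) / (1 - g ∅) := by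
            rw [← add_sum_erase A.powerset (fun S => if S = ∅ then (0 : ℝ) else g S / (1 - g ∅))
              (empty_mem_powerset A), ← add_sum_erase A.powerset g (empty_mem_powerset A)]
            rw [if_pos rfl, zero_add, add_sub_cancel_left, sum_div]
            refine sum_congr rfl fun S hS => ?_
            rw [if_neg (mem_erase.mp hS).1]
          rw [e, le_div_iff₀ ha1]
          linarith) p hp hp1
      refine ⟨G, hGU, ?_, ?_⟩
      · rintro H ⟨A, hA, hAH⟩
        obtain ⟨S, hS, hSA⟩ := hG A hA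
        exact ⟨S, hS, hSA.trans hAH⟩
      · have e2 : ∑ S : Finset X, (if S = ∅ then (0 : ℝ) else g S / (1 - g ∅)) * p ^ S.card =
            c' / (1 - g ∅) := by
          rw [← add_sum_erase univ
            (fun S : Finset X => (if S = ∅ then (0 : ℝ) else g S / (1 - g ∅)) * p ^ S.card)
            (mem_univ (∅ : Finset X))]
          rw [if_pos rfl, zero_mul, zero_add, hc', sum_div]
          refine sum_congr rfl fun S hS => ?_
          rw [if_neg (mem_erase.mp hS).1]
          ring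
        rw [e2] at hGc
        rw [hsplit]
        refine hGc.trans ?_
        rw [div_div, div_le_iff₀ (by positivity)]
        rcases le_total (g ∅) (1 / 2) with h3 | h3
        · nlinarith
        · nlinarith
  -- optimal cover
  let Cov : Finset (Finset (Finset X)) := univ.filter (fun G =>
    (∀ S ∈ G, S ⊆ U) ∧ (∀ H, (∃ A ∈ T, A ⊆ H) → ∃ S ∈ G, S ⊆ H))
  have hne : Cov.Nonempty := ⟨{∅}, by
    simp only [Cov, mem_filter, mem_univ, true_and]
    exact ⟨by simp, fun H _ => ⟨∅, by simp, empty_subset _⟩⟩⟩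
  obtain ⟨G, hG, hmin⟩ := exists_min_image Cov (fun G => ∑ S ∈ G, (p / 4104) ^ S.card) hne
  simp only [Cov, mem_filter, mem_univ, true_and] at hG
  refine ⟨G, hG.1, fun H hH => hG.2 H hH, fun g hg => ?_⟩
  obtain ⟨G', h1, h2, h3⟩ := step g hg
  have hG' : G' ∈ Cov := by
    simp only [Cov, mem_filter, mem_univ, true_and]
    exact ⟨h1, h2⟩
  exact (hmin G' hG').trans h3

end Vale.Agent.P034
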