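import Vale.Agent.P034.RealRO
import Vale.Agent.P034.Split

namespace Vale.Agent.P034

open Finset
open scoped ENNReal

variable {X : Type} [Fintype X] [DecidableEq X]

/-- combinatorial part of `split` -/
lemma split_comb (w : Finset X → ℝ≥0∞) (hw : Tree w) (U : Finset X) (hU : ∀ S, w S ≠ 0 → S ⊆ U) :
    ∃ (Rs : Finset (Finset X)) (V : Finset X → Finset X),
      (∀ R ∈ Rs, R.Nonempty ∧ R ⊆ V R ∧ V R ⊆ U) ∧
      (∀ R ∈ Rs, ∀ R' ∈ Rs, R ≠ R' → Disjoint (V R) (V R')) ∧
      (∀ R ∈ Rs, ∀ S, w S ≠ 0 → R ⊆ S → S ⊆ V R) ∧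
      (∀ S, w S ≠ 0 → S.Nonempty → ∃ R ∈ Rs, R ⊆ S) ∧
      (∀ S, w S ≠ 0 → ∀ R ∈ Rs, ∀ R' ∈ Rs, R ⊆ S → R' ⊆ S → R = R') := by
  classical
  have hRs : ∀ R ∈ (univ.filter (fun S : Finset X => w S ≠ 0 ∧ S.Nonempty)).image (rt w),
      ∃ A, w A ≠ 0 ∧ A.Nonempty ∧ rt w A = R := by
    intro R hR
    obtain ⟨A, hA, rfl⟩ := Finset.mem_image.mp hR
    simp only [Finset.mem_filter, Finset.mem_univ, true_and] at hA
    exact ⟨A, hA.1, hA.2, rfl⟩
  have h0 : ∀ R ∈ (univ.filter (fun S : Finset X => w S ≠ 0 ∧ S.Nonempty)).image (rt w),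
      R.Nonempty := by
    intro R hR
    obtain ⟨A, hA, hAn, rfl⟩ := hRs R hR
    exact rt_nonempty hw hA hAn
  have h1 : ∀ S, w S ≠ 0 → S.Nonempty →
      ∃ R ∈ (univ.filter (fun S : Finset X => w S ≠ 0 ∧ S.Nonempty)).image (rt w), R ⊆ S := by
    intro S hS hSn
    refine ⟨rt w S, Finset.mem_image_of_mem _ ?_, rt_sub hS hSn⟩
    simp only [Finset.mem_filter, Finset.mem_univ, true_and]
    exact ⟨hS, hSn⟩
  have h3 : ∀ R ∈ (univ.filter (fun S : Finset X => w S ≠ 0 ∧ S.Nonempty)).image (rt w),
      ∀ S, w S ≠ 0 → R ⊆ S → R = rt w S := by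
    intro R hR S hS hRS
    obtain ⟨A, hA, hAn, rfl⟩ := hRs R hR
    exact rt_eq_of_subset hw hA hAn hS hRS
  refine ⟨(univ.filter (fun S : Finset X => w S ≠ 0 ∧ S.Nonempty)).image (rt w),
    fun R => (univ.filter (fun S : Finset X => w S ≠ 0 ∧ R ⊆ S)).biUnion id, ?_, ?_, ?_, h1, ?_⟩
  · intro R hR
    refine ⟨h0 R hR, ?_, ?_⟩
    · obtain ⟨A, hA, hAn, rfl⟩ := hRs R hR
      intro x hx
      exact Finset.mem_biUnion.mpr ⟨A, by simp [hA, rt_sub hA hAn], rt_sub hA hAn hx⟩
    · intro x hx
      obtain ⟨S, hS, hxS⟩ := Finset.mem_biUnion.mp hx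
      simp only [Finset.mem_filter, Finset.mem_univ, true_and] at hS
      exact hU S hS.1 hxS
  · intro R hR R' hR' hne
    rw [Finset.disjoint_left]
    intro x hx hx'
    obtain ⟨S, hS, hxS⟩ := Finset.mem_biUnion.mp hx
    obtain ⟨S', hS', hxS'⟩ := Finset.mem_biUnion.mp hx'
    simp only [Finset.mem_filter, Finset.mem_univ, true_and] at hS hS'
    apply hne
    rw [h3 R hR S hS.1 hS.2, h3 R' hR' S' hS'.1 hS'.2]
    exact rt_eq hw hS.1 hS'.1 ⟨x, Finset.mem_inter.mpr ⟨hxS, hxS'⟩⟩
  · intro R hR S hS hRS x hx
    exact Finset.mem_biUnion.mpr ⟨S, by simp [hS, hRS], hx⟩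
  · intro S hS R hR R' hR' hRS hRS'
    rw [h3 R hR S hS hRS, h3 R' hR' S hS hRS']

lemma mulW_atSet (R : Finset X) (u : Finset X → ℝ) (S : Finset X) :
    mulW (atSet R 1) u S = if R ⊆ S then u (S \ R) else 0 := by
  unfold mulW atSet
  have : ∀ A ∈ S.powerset, (if A = R then (1 : ℝ) else 0) * u (S \ A)
      = if A = R then u (S \ R) else 0 := by
    intro A _
    split_ifs with h
    · rw [h, one_mul]
    · rw [zero_mul]
  rw [sum_congr rfl this, sum_ite_eq']
  simp

/-- Every nonnegative weight with tree-like support is, up to its value at `∅`, read-once. -/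
theorem tree_ro {m : ℕ} (hm : 1 ≤ m) (U : Finset X) : ∀ g : Finset X → ℝ, (∀ S, 0 ≤ g S) →
    (∀ A B C : Finset X, g A ≠ 0 → g B ≠ 0 → g C ≠ 0 → A ∩ B ⊆ C ∨ A ∩ C ⊆ B) →
    (∀ S, g S ≠ 0 → S ⊆ U) →
    ∃ w, ReadOnce m U w ∧ ∀ S, g S = atSet ∅ (g ∅) S + w S := by
  classical
  induction U using Finset.strongInduction with
  | H U ih =>
    intro g hg hT hU
    have hne : ∀ S, (if g S = 0 then (0 : ℝ≥0∞) else 1) ≠ 0 ↔ g S ≠ 0 := by
      intro S
      by_cases h : g S = 0 <;> simp [h]
    obtain ⟨Rs, V, h1, h2, h4, h5, h6⟩ := split_comb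
      (fun S => if g S = 0 then (0 : ℝ≥0∞) else 1)
      (fun A B C hA hB hC => hT A B C ((hne A).1 hA) ((hne B).1 hB) ((hne C).1 hC)) U
      (fun S hS => hU S ((hne S).1 hS))
    simp only [hne] at h4 h5 h6
    have key : ∀ R ∈ Rs, ReadOnce m (V R) (fun S => if R ⊆ S then g S else 0) := by
      intro R hR
      obtain ⟨hRn, hRV, hVU⟩ := h1 R hR
      have hss : V R \ R ⊂ U := by
        refine ⟨sdiff_subset.trans hVU, fun hsub => ?_⟩
        obtain ⟨x, hx⟩ := hRn
        exact (mem_sdiff.mp (hsub (hVU (hRV hx)))).2 hx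
      obtain ⟨w, hw, hgw⟩ := ih (V R \ R) hss (fun S => if Disjoint S R then g (R ∪ S) else 0)
        (by
          intro S
          split_ifs
          · exact hg _
          · exact le_rfl)
        (by
          intro A B C hA hB hC
          simp only [ne_eq, ite_eq_right_iff, not_forall] at hA hB hC
          obtain ⟨dA, hA'⟩ := hA
          obtain ⟨dB, hB'⟩ := hB
          obtain ⟨dC, hC'⟩ := hC
          rcases hT _ _ _ hA' hB' hC' with h | h
          · left
            intro x hx
            have hxA := (Finset.mem_inter.mp hx).1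
            have hxB := (Finset.mem_inter.mp hx).2
            have := h (Finset.mem_inter.mpr
              ⟨Finset.mem_union_right R hxA, Finset.mem_union_right R hxB⟩)
            rcases Finset.mem_union.mp this with h' | h'
            · exact absurd h' (Finset.disjoint_left.mp dA hxA)
            · exact h'
          · right
            intro x hx
            have hxA := (Finset.mem_inter.mp hx).1
            have hxC := (Finset.mem_inter.mp hx).2
            have := h (Finset.mem_inter.mpr
              ⟨Finset.mem_union_right R hxA, Finset.mem_union_right R hxC⟩)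
            rcases Finset.mem_union.mp this with h' | h'
            · exact absurd h' (Finset.disjoint_left.mp dA hxA)
            · exact h')
        (by
          intro S hS x hx
          simp only [ne_eq, ite_eq_right_iff, not_forall] at hS
          obtain ⟨dS, hS'⟩ := hS
          rw [mem_sdiff]
          exact ⟨h4 R hR _ hS' subset_union_left (mem_union_right R hx),
            Finset.disjoint_left.mp dS hx⟩)
      have hroot := ReadOnce.root (m := m) R (V R \ R)
        ((fun S => if Disjoint S R then g (R ∪ S) else 0) ∅)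
        (fun j S => if j = ⟨0, hm⟩ then w S else 0) hRn disjoint_sdiff
        (by
          simp only
          split_ifs
          · exact hg _
          · exact le_rfl)
        (by
          intro j
          by_cases hj : j = ⟨0, hm⟩
          · simp only [hj, if_true]
            exact hw
          · simp only [hj, if_false]
            exact ReadOnce.zero _)
      rw [union_sdiff_of_subset hRV] at hroot
      convert hroot using 1
      funext S
      rw [mulW_atSet]
      by_cases hRS : R ⊆ S
      · rw [if_pos hRS, if_pos hRS]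
        have h := hgw (S \ R)
        rw [if_pos sdiff_disjoint, union_sdiff_of_subset hRS] at h
        rw [h]
        simp
      · rw [if_neg hRS, if_neg hRS]
    have sumRO : ∀ T : Finset (Finset X), T ⊆ Rs →
        ReadOnce m (T.biUnion V) (fun S => ∑ R ∈ T, if R ⊆ S then g S else 0) := by
      intro T
      induction T using Finset.induction_on with
      | empty =>
        intro _
        simpa using ReadOnce.zero (m := m) (∅ : Finset X)
      | insert R T hRT ihT =>
        intro hsub
        have hR : R ∈ Rs := hsub (mem_insert_self R T)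
        have hT' : T ⊆ Rs := fun x hx => hsub (mem_insert_of_mem hx)
        have hdis : Disjoint (V R) (T.biUnion V) := by
          rw [disjoint_biUnion_right]
          intro R' hR'
          exact h2 R hR R' (hT' hR') (fun h => hRT (by rw [h]; exact hR'))
        have h := ReadOnce.sum _ _ _ _ hdis (key R hR) (ihT hT')
        rw [biUnion_insert]
        convert h using 1
        funext S
        rw [sum_insert hRT]
    have hBU : Rs.biUnion V ⊆ U := by
      intro x hx
      obtain ⟨R, hR, hxR⟩ := mem_biUnion.mp hx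
      exact (h1 R hR).2.2 hxR
    have hfin := ReadOnce.sum _ _ _ _ (disjoint_sdiff (s := Rs.biUnion V) (t := U))
      (sumRO Rs Subset.rfl) (ReadOnce.zero (m := m) (U \ Rs.biUnion V))
    rw [union_sdiff_of_subset hBU] at hfin
    refine ⟨_, hfin, fun S => ?_⟩
    simp only [add_zero]
    by_cases hS : g S = 0
    · rw [hS]
      unfold atSet
      by_cases hS0 : S = ∅
      · rw [if_pos hS0, ← hS0, hS]
        simp
      · rw [if_neg hS0]
        simp
    · by_cases hS0 : S = ∅
      · subst hS0
        unfold atSet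
        rw [if_pos rfl]
        have : ∑ R ∈ Rs, (if R ⊆ ∅ then g ∅ else 0) = 0 := by
          apply sum_eq_zero
          intro R hR
          rw [if_neg]
          intro h
          exact (h1 R hR).1.ne_empty (subset_empty.mp h)
        rw [this, add_zero]
      · obtain ⟨R, hR, hRS⟩ := h5 S hS (nonempty_iff_ne_empty.mpr hS0)
        unfold atSet
        rw [if_neg hS0, zero_add, sum_eq_single R]
        · rw [if_pos hRS]
        · intro R' hR' hne'
          rw [if_neg]
          intro h
          exact hne' (h6 S hS R' hR' R hR h hRS)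
        · intro h
          exact absurd hR h

end Vale.Agent.P034
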