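import Vale.Agent.P034.Final

namespace Vale.Agent.P034

open Finset
open scoped ENNReal

variable {X : Type} [Fintype X] [DecidableEq X]

/-- real-valued version -/
lemma real_version (g : Finset X → ℝ) (hg : ∀ S, 0 ≤ g S)
    (hT : ∀ A B C : Finset X, g A ≠ 0 → g B ≠ 0 → g C ≠ 0 → A ∩ B ⊆ C ∨ A ∩ C ⊆ B)
    (p : ℝ) (hp : 0 ≤ p) (hc : ∑ S : Finset X, g S * p ^ S.card ≤ 1 / 2) :
    ∃ G : Finset (Finset X), (∀ H : Finset X, 1 ≤ ∑ S ∈ H.powerset, g S → ∃ S ∈ G, S ⊆ H) ∧
      ∑ S ∈ G, (p / 4104) ^ S.card ≤ 1 / 2 := by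
  have hhalf : ENNReal.ofReal (1 / 2) = 1 / 2 := by
    rw [ENNReal.ofReal_div_of_pos (by norm_num)]
    simp
  have h := final_ennreal (X := X) (p := ENNReal.ofReal p) (q := ENNReal.ofReal (p / 4104)) ?_
    (fun S => ENNReal.ofReal (g S)) ?_ ?_
  · obtain ⟨G, -, hG, hcost⟩ := h
    refine ⟨G, fun H hH => hG H ?_, ?_⟩
    · change 1 ≤ W _ H
      unfold W
      rw [← ENNReal.ofReal_sum_of_nonneg (fun S _ => hg S)]
      rw [← ENNReal.ofReal_one]
      exact ENNReal.ofReal_le_ofReal hH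
    · have e : ∑ S ∈ G, ENNReal.ofReal (p / 4104) ^ S.card =
          ENNReal.ofReal (∑ S ∈ G, (p / 4104) ^ S.card) := by
        rw [ENNReal.ofReal_sum_of_nonneg (fun S _ => by positivity)]
        refine sum_congr rfl fun S _ => ?_
        rw [ENNReal.ofReal_pow (by positivity)]
      rw [e, ← hhalf] at hcost
      exact (ENNReal.ofReal_le_ofReal_iff (by norm_num)).mp hcost
  · have : (4104 : ℝ≥0∞) = ENNReal.ofReal 4104 := by simp
    rw [this, ← ENNReal.ofReal_mul (by norm_num)]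
    apply ENNReal.ofReal_le_ofReal
    linarith
  · intro A B C hA hB hC
    apply hT A B C
    · intro h0; apply hA; simp [h0]
    · intro h0; apply hB; simp [h0]
    · intro h0; apply hC; simp [h0]
  · unfold cst
    have e : ∑ S : Finset X, ENNReal.ofReal (g S) * ENNReal.ofReal p ^ S.card =
        ENNReal.ofReal (∑ S : Finset X, g S * p ^ S.card) := by
      rw [ENNReal.ofReal_sum_of_nonneg (fun S _ => mul_nonneg (hg S) (by positivity))]
      refine sum_congr rfl fun S _ => ?_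
      rw [ENNReal.ofReal_mul (hg S), ENNReal.ofReal_pow hp]
    rw [e, ← hhalf]
    exact ENNReal.ofReal_le_ofReal hc

end Vale.Agent.P034
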